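import Vale.Agent.P241.H46.Roots2
import Vale.Agent.P251.F.Inv
import Vale.Agent.P251.Q.FGL

/-!
# P241, block ROOTS: the roots lemma for formal group laws

* `coeff_multSeries_mem_Ih` : modulo `I_h = (v_0, …, v_{h-1})` the series `[p](x)` is a series in
  `x ^ (p ^ h)` (any law over any commutative ring, any prime);
* `sub_eq_unit_mul`, `sum_coeff_mul_pow_eq_zero` : the elements `x a` (`a ∈ ι`) of a homomorphism
  from a group `ι` killed by `p` into the nilpotent points of the law;
* `roots_law` : `v_t ^ M (∏_{a ≠ 0} x a) ^ (p ^ h binom(#ι, 2)) ∈ I_h`.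
-/

open MvPowerSeries
open Vale.Agent.P217 Vale.Agent.P251.F Vale.Agent.P251.Q

namespace Vale.Agent.P241.H46

section mem

variable {B : Type*} [CommRing B]

theorem coeff_multSeries_mem_Ih (p : ℕ) [hp : Fact p.Prime] (h : ℕ) (F : Law B) {n : ℕ}
    (hn : ¬ p ^ h ∣ n) : PowerSeries.coeff n (multSeries F.toFG p) ∈ Ih p h F := by
  rcases Nat.eq_zero_or_pos h with rfl | hpos
  · exact absurd (by simp) hn
  set π := Ideal.Quotient.mk (Ih p h F) with hπ
  have h0 : ∀ i < h, vv p i (F.map π) = 0 := fun i hi => by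
    rw [vv_map, hπ, Ideal.Quotient.eq_zero_iff_mem]
    exact vv_mem_Ih hi F
  have key : PowerSeries.coeff n (multSeries (F.map π).toFG p) = 0 := by
    rcases subsingleton_or_nontrivial (B ⧸ Ih p h F) with hB | hB
    · exact Subsingleton.elim _ _
    have hp0 : (p : B ⧸ Ih p h F) = 0 := by rw [← vv_zero p (F.map π)]; exact h0 0 hpos
    have hchar : CharP (B ⧸ Ih p h F) p := (CharP.charP_iff_prime_eq_zero hp.out).2 hp0
    obtain ⟨V, hV, -⟩ := exists_height' p (isHom_multSeries (F.map π).toFG p) h h0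
    rw [hV, PowerSeries.coeff_subst_X_pow (pow_ne_zero h hp.out.ne_zero), if_neg hn]
  rw [Law.map_toFG, ← map_multSeries, PowerSeries.coeff_map] at key
  exact (Ideal.Quotient.eq_zero_iff_mem).1 key

theorem natCast_mem_Ih (p : ℕ) {h : ℕ} (hh : 0 < h) (F : Law B) : (p : B) ∈ Ih p h F := by
  rw [← vv_zero p F]
  exact vv_mem_Ih hh F

end mem

section points

variable {A S : Type*} [CommRing A] [CommRing S] [Algebra A S] (F : Law A)

/-- `F(x, y) = x + y + x y u` -/
theorem exists_nev_law {x y : S} (hx : IsNilpotent x) (hy : IsNilpotent y) :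
    ∃ u : S, nev ![x, y] F.ps = x + y + x * y * u := by
  obtain ⟨H, hH⟩ := exists_FG_decomp F.toFG
  have hn : ∀ s, IsNilpotent ((![x, y] : Fin 2 → S) s) := isNilpotent_pair hx hy
  refine ⟨nev ![x, y] H, ?_⟩
  change nev ![x, y] F.toFG.toPowerSeries = _
  rw [hH, nev_add hn, nev_add hn, nev_mul hn, nev_mul hn, nev_X hn, nev_X hn]
  rfl

variable {ι : Type*} [AddCommGroup ι] (x : ι → S) (hx : ∀ a, IsNilpotent (x a))
  (hadd : ∀ a b, x (a + b) = nev ![x a, x b] F.ps)

include hx hadd

theorem point_zero : x 0 = 0 := by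
  obtain ⟨u, hu⟩ := exists_nev_law F (hx 0) (hx 0)
  have h := hadd 0 0
  rw [add_zero, hu] at h
  have h1 : x 0 * (1 + x 0 * u) = 0 := by linear_combination -h
  have h2 : IsUnit (1 + x 0 * u) := isUnit_add_nil isUnit_one
    (Commute.isNilpotent_mul_right (Commute.all _ _) (hx 0))
  exact (h2.mul_left_eq_zero).1 h1

/-- `x a - x b` is a unit times `x (a - b)` -/
theorem sub_eq_unit_mul (a b : ι) : ∃ u : Sˣ, x a - x b = u * x (a - b) := by
  obtain ⟨u, hu⟩ := exists_nev_law F (hx (a - b)) (hx b)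
  have h := hadd (a - b) b
  rw [sub_add_cancel, hu] at h
  have h2 : IsUnit (1 + x b * u) := isUnit_add_nil isUnit_one
    (Commute.isNilpotent_mul_right (Commute.all _ _) (hx b))
  obtain ⟨w, hw⟩ := h2
  refine ⟨w, ?_⟩
  rw [hw, h]
  ring

theorem nsmul_point (m : ℕ) (a : ι) : x (m • a) = nev1 (x a) (multSeries F.toFG m) := by
  induction m with
  | zero => rw [zero_nsmul, nev1_multSeries_zero _ (hx a), point_zero F x hx hadd]
  | succ m ih => rw [succ_nsmul, hadd, ih, nev1_multSeries_succ _ (hx a)]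

/-- `[m](x a) = 0` if `m a = 0` -/
theorem sum_coeff_mul_pow_eq_zero {m : ℕ} {a : ι} (ha : m • a = 0) :
    ∃ L₀, ∀ L ≥ L₀, ∑ n ∈ Finset.range L,
      algebraMap A S (PowerSeries.coeff n (multSeries F.toFG m)) * x a ^ n = 0 := by
  obtain ⟨k, hk⟩ := hx a
  refine ⟨k, fun L hL => ?_⟩
  have h1 : x a ^ L = 0 := pow_eq_zero_of_le hL hk
  have h2 := nsmul_point F x hx hadd m a
  rw [ha, point_zero F x hx hadd, nev1_eq_sum h1] at h2
  rw [h2]
  exact Finset.sum_congr rfl fun n _ => (Algebra.smul_def _ _).symm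

/-- **The roots lemma for a formal group law.** `x` is a homomorphism from a finite group `ι`
killed by `p` to the nilpotent points of `F` in the `A`-algebra `S`, `h ≤ t`,
`p ^ (t - h) < #ι`. Then `v_t ^ M (∏_{a ≠ 0} x a) ^ (p ^ h binom(#ι, 2)) ∈ I_h S` for some `M`. -/
theorem roots_law {p : ℕ} [hp : Fact p.Prime] [Fintype ι] [DecidableEq ι]
    (hι : ∀ a : ι, p • a = 0) {h t : ℕ} (hht : h ≤ t) (ht : p ^ (t - h) < Fintype.card ι) :
    ∃ M, algebraMap A S (vv p t F) ^ M *
      (∏ a ∈ Finset.univ.erase 0, x a) ^ (p ^ h * (Fintype.card ι).choose 2) ∈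
        (Ih p h F).map (algebraMap A S) := by
  have key := roots_mod hp.out x hx (sub_eq_unit_mul F x hx hadd)
    (fun n => algebraMap A S (PowerSeries.coeff n (multSeries F.toFG p)))
    (fun a => sum_coeff_mul_pow_eq_zero F x hx hadd (hι a))
    ((Ih p h F).map (algebraMap A S)) h
    (fun hh => by
      have := Ideal.mem_map_of_mem (algebraMap A S) (natCast_mem_Ih p hh F)
      simpa using this)
    (fun n hn => Ideal.mem_map_of_mem _ (coeff_multSeries_mem_Ih p h F hn))
    (p ^ (t - h)) ht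
  rwa [← pow_add, Nat.add_sub_cancel' hht] at key

end points

section lines

open Vale.Agent.P251.G CategoryTheory MonoidalCategory
open MultTheory

universe v

variable {E : MultTheory.{v}} (o : Orientation E)
variable {X : LC} [E.Good X] [CompactSpace X]

/-- **The roots lemma for line bundles** `f a : X → CP (J a)`, `a ∈ ι`, over a compact base, with
`f (a + b) ≅ f a ⊗ f b` (only the Euler classes are compared), `ι` a finite group killed by
`p`. -/
theorem roots_lines {ι : Type*} [AddCommGroup ι] [Fintype ι] [DecidableEq ι] {J : ι → Type}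
    [∀ a, Fintype (J a)] (f : ∀ a, C(X, CP (J a)))
    (hf : ∀ a b, o.lc (f (a + b)) = o.lc (tens (f a) (f b)))
    {p : ℕ} [hp : Fact p.Prime] (hι : ∀ a : ι, p • a = 0) {h t : ℕ} (hht : h ≤ t)
    (ht : p ^ (t - h) < Fintype.card ι) :
    ∃ M, algebraMap E.A (E.U X) (vv p t o.law) ^ M *
      (∏ a ∈ Finset.univ.erase 0, o.lc (f a)) ^ (p ^ h * (Fintype.card ι).choose 2) ∈
        (Ih p h o.law).map (algebraMap E.A (E.U X)) :=
  roots_law o.law (fun a => o.lc (f a)) (fun a => isNilpotent_lc o (f a))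
    (fun a b => (hf a b).trans (lc_tens o (f a) (f b))) hι hht ht

end lines

end Vale.Agent.P241.H46
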