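import Vale.Agent.P241.H46.Roots

/-!
# P241, block P2 / T4: the roots lemma without inverting the coefficient

If `w f(z_s) = 0` for `z_0, …, z_{N-1}` then for every `m < N` there is `ξ` in the ideal generated
by the `z_s` with `w Δ (f_m - ξ) = 0`, `Δ` the Vandermonde product.
-/

open Polynomial

namespace Vale.Agent.P241.H46

variable {R : Type*} [CommRing R]

/-- **T4, the Newton form.** -/
theorem vand_mul_coeff_sub : ∀ (l : List R) (f : R[X]) (w : R), (∀ z ∈ l, w * f.eval z = 0) →
    ∀ m < l.length, ∃ ξ ∈ Ideal.span {z | z ∈ l}, w * vand l * (f.coeff m - ξ) = 0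
  | [], _, _, _, m, hm => absurd hm (by simp)
  | a :: l, f, w, hr, m, hm => by
    obtain ⟨f1, hf1⟩ : ∃ f1 : R[X], f1 = f /ₘ (X - C a) := ⟨_, rfl⟩
    have hX : f = (X - C a) * f1 + C (f.eval a) := by
      have h := modByMonic_add_div f (X - C a)
      rw [modByMonic_X_sub_C_eq_C_eval, ← hf1] at h
      rw [← h]
      simp [add_comm]
    have hdiv : ∀ z, f.eval z = (z - a) * f1.eval z + f.eval a := by
      intro z
      have h' := congrArg (eval z) hX
      simpa using h'
    have ha : w * f.eval a = 0 := hr a (by simp)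
    have key := vand_mul_coeff_sub l f1 (w * (l.map fun c => c - a).prod) (by
      intro z hz
      obtain ⟨q, hq⟩ : (z - a) ∣ (l.map fun c => c - a).prod :=
        List.dvd_prod (List.mem_map_of_mem (f := fun c => c - a) hz)
      have e1 := hr z (List.mem_cons_of_mem _ hz)
      rw [hq]
      have : w * ((z - a) * q) * f1.eval z = q * (w * f.eval z - w * f.eval a) := by
        rw [hdiv z]; ring
      rw [this, e1, ha]; simp)
    have hspan : Ideal.span {z | z ∈ l} ≤ Ideal.span {z | z ∈ a :: l} :=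
      Ideal.span_mono fun z hz => List.mem_cons_of_mem _ hz
    have ha' : a ∈ Ideal.span {z | z ∈ a :: l} := Ideal.subset_span (by simp)
    rcases m with _ | m
    · refine ⟨-(a * f1.coeff 0), (Ideal.neg_mem_iff _).2 (Ideal.mul_mem_right _ _ ha'), ?_⟩
      have h0 : f.coeff 0 = f.eval a - a * f1.coeff 0 := by
        have := congrArg (fun g => coeff g 0) hX
        simp only [coeff_add, coeff_C_zero, mul_coeff_zero, coeff_sub, coeff_X_zero] at this
        rw [this]; ring
      rw [h0]
      linear_combination (vand (a :: l)) * ha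
    · obtain ⟨ξ, hξ, h⟩ := key m (by simpa using hm)
      refine ⟨ξ - a * f1.coeff (m + 1), sub_mem (hspan hξ) (Ideal.mul_mem_right _ _ ha'), ?_⟩
      have h0 : f.coeff (m + 1) = f1.coeff m - a * f1.coeff (m + 1) := by
        have := congrArg (fun g => coeff g (m + 1)) hX
        simp only [coeff_add, sub_mul, coeff_sub, coeff_X_mul, coeff_C_mul, coeff_C_succ] at this
        rw [this]; ring
      rw [h0, vand]
      linear_combination h

theorem isNilpotent_of_mem_span {l : List R} (hn : ∀ z ∈ l, IsNilpotent z) {ξ : R}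
    (h : ξ ∈ Ideal.span {z | z ∈ l}) : IsNilpotent ξ := by
  rw [← mem_nilradical]
  refine (Ideal.span_le.2 ?_) h
  intro z hz
  exact mem_nilradical.2 (hn z hz)

/-- `Δ v^M = 0` from `Δ (v - ξ) = 0`, `ξ` nilpotent. -/
theorem mul_pow_eq_zero_of_sub {D v ξ : R} (h : D * (v - ξ) = 0) {M : ℕ} (hξ : ξ ^ M = 0) :
    D * v ^ M = 0 := by
  obtain ⟨q, hq⟩ := sub_dvd_pow_sub_pow v ξ M
  have : D * (v ^ M - ξ ^ M) = 0 := by rw [hq, ← mul_assoc, h, zero_mul]
  rwa [hξ, sub_zero] at this

/-- **T4 for the `[p]`-series, modulo `I = I_h`.** `x a` are the nilpotent Euler classes of the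
characters `a ∈ ι`, `x a - x b = unit * x (a - b)`, roots of `∑ c n X^n`; modulo `I` only powers
of `X^(p^h)` occur; `v = c (p^h m)` with `m < #ι`. Then `v^M (∏_{a≠0} x a)^(p^h binom(#ι, 2)) ∈ I`
for some `M`. The exponent of the Euler classes does not depend on the nilpotence exponents. -/
theorem roots_mod {ι : Type*} [AddCommGroup ι] [Fintype ι] [DecidableEq ι] {p : ℕ}
    (hp : p.Prime) (x : ι → R) (hx : ∀ a, IsNilpotent (x a))
    (hsub : ∀ a b, ∃ u : Rˣ, x a - x b = u * x (a - b)) (c : ℕ → R)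
    (hc : ∀ a, ∃ L₀, ∀ L ≥ L₀, ∑ n ∈ Finset.range L, c n * x a ^ n = 0)
    (I : Ideal R) (h : ℕ) (hpI : 0 < h → (p : R) ∈ I)
    (hcI : ∀ n, ¬ p ^ h ∣ n → c n ∈ I) (m : ℕ) (hm : m < Fintype.card ι) :
    ∃ M, c (p ^ h * m) ^ M *
      (∏ a ∈ Finset.univ.erase 0, x a) ^ (p ^ h * (Fintype.card ι).choose 2) ∈ I := by
  classical
  set π := Ideal.Quotient.mk I with hπ
  set q := p ^ h with hq
  have hq0 : 0 < q := pow_pos hp.pos h
  set P := ∏ a ∈ Finset.univ.erase 0, x a with hP
  set l : List ι := (Finset.univ : Finset ι).toList with hl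
  have hlen : l.length = Fintype.card ι := by rw [hl, Finset.length_toList, Finset.card_univ]
  -- the polynomial
  choose L₀ hL₀ using hc
  set L := m + 1 + ∑ a, L₀ a with hL
  set f : (R ⧸ I)[X] := ∑ n ∈ Finset.range L, C (π (c (q * n))) * X ^ n with hf
  have hroot : ∀ a, f.eval (π (x a) ^ q) = 0 := by
    intro a
    have h1 : f.eval (π (x a) ^ q) = ∑ n ∈ Finset.range L, π (c (q * n)) * π (x a) ^ (q * n) := by
      rw [hf, eval_finsetSum]
      refine Finset.sum_congr rfl fun n _ => ?_
      simp [pow_mul]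
    have h2 : ∑ n ∈ Finset.range (q * L), π (c n) * π (x a) ^ n = 0 := by
      have h3 := hL₀ a (q * L) (by
        have : L₀ a ≤ L := by
          have := Finset.single_le_sum (f := L₀) (fun _ _ => Nat.zero_le _) (Finset.mem_univ a)
          omega
        nlinarith)
      have h4 := congrArg π h3
      simpa [map_sum] using h4
    rw [h1, ← h2]
    have h5 : ∑ n ∈ Finset.range (q * L), π (c n) * π (x a) ^ n =
        ∑ n ∈ (Finset.range (q * L)).filter (fun n => q ∣ n), π (c n) * π (x a) ^ n := by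
      rw [Finset.sum_filter]
      refine Finset.sum_congr rfl fun n _ => ?_
      split_ifs with h
      · rfl
      · rw [(Ideal.Quotient.eq_zero_iff_mem).2 (hcI n h), zero_mul]
    rw [h5]
    refine Finset.sum_bij (fun n _ => q * n) ?_ ?_ ?_ ?_
    · intro n hn
      simp only [Finset.mem_filter, Finset.mem_range] at hn ⊢
      exact ⟨Nat.mul_lt_mul_of_pos_left hn hq0, dvd_mul_right _ _⟩
    · intro n _ n' _ h
      exact Nat.eq_of_mul_eq_mul_left hq0 h
    · intro n hn
      simp only [Finset.mem_filter, Finset.mem_range] at hn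
      obtain ⟨k, rfl⟩ := hn.2
      exact ⟨k, Finset.mem_range.2 (Nat.lt_of_mul_lt_mul_left hn.1), rfl⟩
    · intro n _
      rfl
  have hcoeff : f.coeff m = π (c (q * m)) := by
    rw [hf, finsetSum_coeff]
    simp only [coeff_C_mul, coeff_X_pow]
    rw [Finset.sum_eq_single m]
    · simp
    · intro n _ hn
      simp [hn.symm]
    · intro h
      exact absurd (Finset.mem_range.2 (by omega)) h
  -- Newton
  have hnil : ∀ z ∈ l.map (fun a => π (x a) ^ q), IsNilpotent z := by
    intro z hz
    obtain ⟨a, -, rfl⟩ := List.mem_map.1 hz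
    exact (((hx a).map π).pow_of_pos hq0.ne')
  obtain ⟨ξ, hξ, hN⟩ := vand_mul_coeff_sub (l.map fun a => π (x a) ^ q) f 1 (by
        intro z hz
        obtain ⟨a, -, rfl⟩ := List.mem_map.1 hz
        rw [hroot a, mul_zero]) m (by rw [List.length_map, hlen]; exact hm)
  obtain ⟨M, hM⟩ := isNilpotent_of_mem_span hnil hξ
  have hv := mul_pow_eq_zero_of_sub hN hM
  rw [one_mul, hcoeff] at hv
  have hdvd : vand (l.map fun a => π (x a) ^ q) ∣ (π P ^ q) ^ l.length.choose 2 := by
    refine vand_dvd (fun a => π (x a) ^ q) (π P ^ q) ?_ l (Finset.nodup_toList _)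
    intro a b hab
    obtain ⟨u, hu'⟩ := hsub b a
    have h1 : π (x b) ^ q - π (x a) ^ q = (π (x b - x a)) ^ q := by
      rw [map_sub, hq]
      exact (sub_pow_of_cast_eq_zero hp h (fun hj => by
        have := (Ideal.Quotient.eq_zero_iff_mem).2 (hpI hj)
        simpa using this) _ _).symm
    simp only [h1]
    refine pow_dvd_pow_of_dvd ?_ q
    rw [hu', map_mul]
    have h2 : π (x (b - a)) ∣ π P := by
      refine map_dvd π (Finset.dvd_prod_of_mem x ?_)
      simp [sub_eq_zero, hab.symm]
    have h3 : IsUnit (π (u : R)) := u.isUnit.map π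
    exact (IsUnit.mul_left_dvd h3).2 h2
  obtain ⟨e, he⟩ := hdvd
  refine ⟨M, (Ideal.Quotient.eq_zero_iff_mem).1 ?_⟩
  rw [map_mul, map_pow, map_pow, pow_mul, ← hlen]
  change π (c (q * m)) ^ M * (π P ^ q) ^ l.length.choose 2 = 0
  rw [he]
  linear_combination e * hv

/-- **T4, the case of a unit coefficient** (nonabelian step): if the nilpotent `x a` are roots of
`f`, `x a - x b = unit * x (a - b)`, and some coefficient `f_m`, `m < #ι`, is a unit, then
`(∏_{a ≠ 0} x a)^binom(#ι, 2) = 0`. -/
theorem roots_unit {ι : Type*} [AddCommGroup ι] [Fintype ι] [DecidableEq ι]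
    (x : ι → R) (hx : ∀ a, IsNilpotent (x a))
    (hsub : ∀ a b, ∃ u : Rˣ, x a - x b = u * x (a - b)) (f : R[X])
    (hf : ∀ a, f.eval (x a) = 0) (m : ℕ) (hm : m < Fintype.card ι) (hu : IsUnit (f.coeff m)) :
    (∏ a ∈ Finset.univ.erase 0, x a) ^ (Fintype.card ι).choose 2 = 0 := by
  classical
  set P := ∏ a ∈ Finset.univ.erase 0, x a with hP
  set l : List ι := (Finset.univ : Finset ι).toList with hl
  have hlen : l.length = Fintype.card ι := by rw [hl, Finset.length_toList, Finset.card_univ]
  have hnil : ∀ z ∈ l.map x, IsNilpotent z := by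
    intro z hz
    obtain ⟨a, -, rfl⟩ := List.mem_map.1 hz
    exact hx a
  obtain ⟨ξ, hξ, hN⟩ := vand_mul_coeff_sub (l.map x) f 1 (by
        intro z hz
        obtain ⟨a, -, rfl⟩ := List.mem_map.1 hz
        rw [hf a, mul_zero]) m (by rw [List.length_map, hlen]; exact hm)
  have hunit : IsUnit (f.coeff m - ξ) := by
    rw [sub_eq_add_neg]
    exact isUnit_add_nil hu (isNilpotent_of_mem_span hnil hξ).neg
  rw [one_mul] at hN
  have hv : vand (l.map x) = 0 := (hunit.mul_left_eq_zero).1 hN
  have hdvd : vand (l.map x) ∣ P ^ l.length.choose 2 := by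
    refine vand_dvd x P ?_ l (Finset.nodup_toList _)
    intro a b hab
    obtain ⟨u, hu'⟩ := hsub b a
    rw [hu']
    exact (IsUnit.mul_left_dvd u.isUnit).2 (Finset.dvd_prod_of_mem x (by simp [sub_eq_zero, hab.symm]))
  rw [hv, zero_dvd_iff, hlen] at hdvd
  exact hdvd

end Vale.Agent.P241.H46
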