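import Vale.Agent.P241.H46.Kappa
import Vale.Agent.P241.EUL.EulProd
import Vale.Agent.P241.EUL.PLines
import Vale.Agent.P241.H122.Char
import Vale.Agent.P251.Q.HasLaw

/-!
# P241, EUL-10: the Euler classes of characters over `B_m = E_m/V`

* `chRep χ`, `diagRep χ` : the representations of a character and of a family of characters;
* `lineEM χ m : C(B_m, CP)`, `lc_lineEM_mul : e(χ ψ) = e(χ ⊗ ψ)`;
* `eul_abelian` : for `V` commutative and `L`, there is a multiple `U` of the sum of all
  characters `≠ 1`, independent of `m`, with `v_t ^ M • e(U) = ∑_{i < h} v_i ^ L • c_i` over `B_m`,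
  `h = t + 1 - rk V`.
-/

open Matrix

set_option linter.unusedSectionVars false

noncomputable section

namespace Vale.Agent.P241.H46

open Vale.Agent.P251.G Vale.Agent.P251.G.LC Vale.Agent.P251.Q Vale.Agent.P251.F Vale.Agent.P241
open Vale.Agent.P241.EUL

/-! ### Representations of characters -/

section chRep

variable {p : ℕ} [hp : Fact p.Prime] {V : Type} [Group V]

theorem root_mul_star (z : rootsOfUnity p ℂ) : ((z : ℂˣ) : ℂ) * star ((z : ℂˣ) : ℂ) = 1 := by
  have h1 : ((z : ℂˣ) : ℂ) ^ p = 1 := by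
    have := z.2
    rw [mem_rootsOfUnity] at this
    rw [← Units.val_pow_eq_pow_val, this, Units.val_one]
  have h2 : ‖((z : ℂˣ) : ℂ)‖ = 1 := Complex.norm_eq_one_of_pow_eq_one h1 hp.out.ne_zero
  rw [Complex.star_def, Complex.mul_conj, Complex.normSq_eq_norm_sq, h2]
  simp

/-- The one-dimensional representation of a character. -/
def chRep (χ : V →* rootsOfUnity p ℂ) : Rep V Unit where
  toFun v := ⟨Matrix.of fun _ _ => ((χ v : ℂˣ) : ℂ), by
    rw [Matrix.mem_unitaryGroup_iff]
    ext i j
    rw [Matrix.mul_apply]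
    simp only [Finset.univ_unique, Finset.sum_singleton, star_apply, of_apply]
    rw [root_mul_star]
    simp⟩
  map_one' := by
    apply Subtype.ext
    ext i j
    simp
  map_mul' v w := by
    apply Subtype.ext
    ext i j
    simp [Matrix.mul_apply]

theorem chRep_coe (χ : V →* rootsOfUnity p ℂ) (v : V) :
    (chRep χ v : Matrix Unit Unit ℂ) = Matrix.of fun _ _ => ((χ v : ℂˣ) : ℂ) := rfl

theorem chRep_num (χ : V →* rootsOfUnity p ℂ) (v : V) : (chRep χ).num v = ((χ v : ℂˣ) : ℂ) := rfl

/-- The diagonal representation of a family of characters. -/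
def diagRep {κ : Type} [Fintype κ] [DecidableEq κ] (χ : κ → (V →* rootsOfUnity p ℂ)) : Rep V κ :=
  Rep.diag fun k => chRep (χ k)

theorem diagRep_coe {κ : Type} [Fintype κ] [DecidableEq κ] (χ : κ → (V →* rootsOfUnity p ℂ))
    (v : V) : (diagRep χ v : Matrix κ κ ℂ) = diagonal fun k => ((χ k v : ℂˣ) : ℂ) := rfl

end chRep

/-! ### The line bundles -/

section lines

variable {p : ℕ} [hp : Fact p.Prime] {V : Type} [Group V] [Fintype V]

/-- The line bundle of a character over `B_m`, as a map to projective space. -/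
def lineEM (χ : V →* rootsOfUnity p ℂ) (m : ℕ) : C(LC.of (BM V m), CP (Fin m × Unit)) :=
  lineCls (B := LC.of (BM V m)) (bunEM (chRep χ) m) (isRank_bunEM _ m rfl)

universe v

variable {E : MultTheory.{v}} (o : Orientation E)

theorem lc_lineEM (χ : V →* rootsOfUnity p ℂ) (m : ℕ)
    (h : (bunEM (chRep χ) m : Bun (LC.of (BM V m)) _).IsRank 1) :
    o.lc (lineEM χ m) = o.e (bunEM (chRep χ) m : Bun (LC.of (BM V m)) _) h :=
  (P251.Q.e_eq_lc o (B := LC.of (BM V m)) (bunEM (chRep χ) m) _).symm

theorem lc_lineEM_mul (χ ψ : V →* rootsOfUnity p ℂ) (m : ℕ) :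
    o.lc (lineEM (χ * ψ) m) = o.lc (tens (lineEM χ m) (lineEM ψ m)) := by
  classical
  have hr : ∀ φ : V →* rootsOfUnity p ℂ,
      (bunEM (chRep φ) m : Bun (LC.of (BM V m)) _).IsRank 1 := fun φ => isRank_bunEM _ m rfl
  let F := (frameEM (chRep χ) m).kron (frameEM (chRep ψ) m)
  have hF : F.bun isQuo = (bunEM (chRep χ) m).tensor (bunEM (chRep ψ) m) :=
    Frame.bun_kron _ _ isQuo
  have hFr : (F.bun isQuo).IsRank 1 := F.isRank isQuo rfl
  have hTr : ((bunEM (chRep χ) m).tensor (bunEM (chRep ψ) m)).IsRank 1 := hF ▸ hFr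
  have h1 : o.lc (tens (lineEM χ m) (lineEM ψ m)) =
      o.e (B := LC.of (BM V m)) ((bunEM (chRep χ) m).tensor (bunEM (chRep ψ) m)) hTr := by
    rw [lineEM, lineEM, ← lineCls_tensor (B := LC.of (BM V m)) _ _ (hr χ) (hr ψ) hTr,
      ← P251.Q.e_eq_lc]
  let F' : Frame (EM V m) (chRep (χ * ψ)) ((Fin m × Unit) × (Fin m × Unit)) :=
    F.inter (Matrix.of fun _ _ => 1) (by
      ext i j
      simp [Matrix.mul_apply]) (fun v => by
      ext i j
      simp [Matrix.mul_apply, chRep_coe])
  have hTT : (Matrix.of fun _ _ => 1 : Matrix (Unit × Unit) Unit ℂ) *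
      (Matrix.of fun _ _ => 1 : Matrix (Unit × Unit) Unit ℂ)ᴴ = 1 := by
    ext i j
    rw [Subsingleton.elim i j]
    simp [Matrix.mul_apply]
  have h2 : F'.bun isQuo = F.bun isQuo := by
    ext1
    funext b
    obtain ⟨e, rfl⟩ := qM_surj b
    rw [Frame.bun_P, Frame.bun_P, Frame.inter_R, conjTranspose_mul, Matrix.mul_assoc,
      ← Matrix.mul_assoc _ _ (F.R e)ᴴ, hTT, Matrix.one_mul]
  have h3 : (F'.bun isQuo).IsRank 1 := F'.isRank isQuo rfl
  have h4 : o.e (B := LC.of (BM V m)) (bunEM (chRep (χ * ψ)) m) (hr _) =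
      o.e (B := LC.of (BM V m)) (F'.bun isQuo) h3 :=
    e_frame o (B := LC.of (BM V m)) isQuo _ F' _ h3
  rw [h1, lc_lineEM o (χ * ψ) m (hr _), h4]
  have h5 : F'.bun isQuo = (bunEM (chRep χ) m).tensor (bunEM (chRep ψ) m) := h2.trans hF
  exact e_congr o (B := LC.of (BM V m)) h5 h3 hTr

end lines

/-! ### The abelian case -/

section abelian

variable {p : ℕ} [hp : Fact p.Prime] {V : Type}

/-- the characters, as an additive group -/
abbrev ChGrp (p : ℕ) (V : Type) [Group V] : Type := Additive (V →* rootsOfUnity p ℂ)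

theorem nsmul_ch [Group V] (a : ChGrp p V) : p • a = 0 := by
  apply Additive.toMul.injective
  ext v
  have h : (Additive.toMul a v) ^ p = 1 := by
    apply Subtype.ext
    have := (Additive.toMul a v).2
    rwa [mem_rootsOfUnity] at this
  change (((Additive.toMul (p • a)) v : ℂˣ) : ℂ) = _
  rw [toMul_nsmul, MonoidHom.pow_apply, h]
  rfl

/-- the index set of `K` copies of all nontrivial characters -/
abbrev ChIdx (p : ℕ) (V : Type) [Group V] (K : ℕ) : Type := Fin K × {a : ChGrp p V // a ≠ 0}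

/-- the family of characters: `K` copies of all nontrivial characters -/
def chFam (p : ℕ) (V : Type) [Group V] (K : ℕ) (i : ChIdx p V K) : V →* rootsOfUnity p ℂ :=
  Additive.toMul i.2.1

theorem chFam_ne [Group V] (K : ℕ) (i : ChIdx p V K) : chFam p V K i ≠ 1 := fun h =>
  i.2.2 (Additive.toMul.injective h)

universe v

variable {E : MultTheory.{v}} (o : Orientation E)

/-- The Euler class over `B_m` of a unitary representation. -/
def eulEM {V : Type} [Group V] [Fintype V] {k : Type} [Fintype k] [DecidableEq k] (U : Rep V k)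
    (m : ℕ) : E.U (LC.of (BM V m)) :=
  o.e (B := LC.of (BM V m)) (bunEM U m) (isRank_bunEM U m rfl)

theorem eulEM_chRep {V : Type} [Group V] [Fintype V] (χ : V →* rootsOfUnity p ℂ) (m : ℕ) :
    eulEM o (chRep χ) m = o.lc (lineEM χ m) := (lc_lineEM o χ m _).symm

/-- `K` copies of a finite family of characters -/
theorem eulEM_diagRep_pow {V : Type} [Group V] [Fintype V] {κ : Type} [Fintype κ]
    [DecidableEq κ] (χ : κ → (V →* rootsOfUnity p ℂ)) (K m : ℕ) :
    eulEM o (diagRep fun i : Fin K × κ => χ i.2) m = (∏ k, o.lc (lineEM (χ k) m)) ^ K := by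
  have h := e_frame_diag_pow o (B := LC.of (BM V m)) isQuo (c := fun k => chRep (χ k))
    (fun k => frameEM (chRep (χ k)) m) K (frameEM (diagRep fun i : Fin K × κ => χ i.2) m)
    (fun k => isRank_bunEM (chRep (χ k)) m rfl) (isRank_bunEM _ m rfl)
    (by rw [Fintype.card_prod, Fintype.card_fin])
  refine h.trans ?_
  congr 1
  exact Finset.prod_congr rfl fun k _ => eulEM_chRep o (χ k) m

/-- **EUL, the abelian case.** -/
theorem eul_abelian [CommGroup V] [Fintype V] (hV : IsPGroup p V) (hr : 0 < Group.rank V)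
    (t L : ℕ) [Fintype (ChGrp p V)] [DecidableEq (ChGrp p V)] :
    ∃ K : ℕ, ∀ m : ℕ, ∃ (M : ℕ) (c : ℕ → E.U (LC.of (BM V m))),
      vv p t o.law ^ M • eulEM o (diagRep (chFam p V K)) m =
        ∑ i ∈ Finset.range (t + 1 - Group.rank V), vv p i o.law ^ L • c i := by
  have hcard : Fintype.card (ChGrp p V) = p ^ Group.rank V := by
    rw [← Nat.card_eq_fintype_card]
    exact H122.card_char hV
  set h := t + 1 - Group.rank V with hh
  have hht : h ≤ t := by omega
  have hlt : p ^ (t - h) < Fintype.card (ChGrp p V) := by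
    rw [hcard]
    exact Nat.pow_lt_pow_right hp.out.one_lt (by omega)
  refine ⟨eulExp p h (Fintype.card (ChGrp p V)) L, fun m => ?_⟩
  obtain ⟨M, c, hc⟩ := lines_sum o (fun a : ChGrp p V => lineEM (Additive.toMul a) m)
    (fun a b => lc_lineEM_mul o (Additive.toMul a) (Additive.toMul b) m) nsmul_ch hht hlt L
  refine ⟨M, c, ?_⟩
  rw [← hc]
  congr 1
  have h1 := eulEM_diagRep_pow o (fun a : {a : ChGrp p V // a ≠ 0} => Additive.toMul a.1)
    (eulExp p h (Fintype.card (ChGrp p V)) L) m
  refine h1.trans ?_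
  congr 1
  exact (Finset.prod_subtype (Finset.univ.erase (0 : ChGrp p V)) (fun a => by simp)
    (fun a => o.lc (lineEM (Additive.toMul a) m))).symm

/-- `eul_abelian` for a group which happens to be commutative. -/
theorem eul_of_comm [Group V] [Fintype V] (hc : ∀ x y : V, x * y = y * x) (hV : IsPGroup p V)
    (hr : 0 < Group.rank V) (t L : ℕ) [Fintype (ChGrp p V)] [DecidableEq (ChGrp p V)] :
    ∃ K : ℕ, ∀ m : ℕ, ∃ (M : ℕ) (c : ℕ → E.U (LC.of (BM V m))),
      vv p t o.law ^ M • eulEM o (diagRep (chFam p V K)) m =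
        ∑ i ∈ Finset.range (t + 1 - Group.rank V), vv p i o.law ^ L • c i := by
  letI : CommGroup V := { (inferInstance : Group V) with mul_comm := hc }
  exact eul_abelian o hV hr t L

end abelian

/-! ### The general statement -/

section main

universe v

/-- The number of the `v_i` used for the group `V` at the height `t`: `t + 1 - rk V` if `V` is
commutative, `0` otherwise. -/
def htV (V : Type) [Group V] [Finite V] (t : ℕ) : ℕ := by
  classical
  exact if ∀ x y : V, x * y = y * x then t + 1 - Group.rank V else 0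

theorem htV_comm {V : Type} [Group V] [Finite V] (hc : ∀ x y : V, x * y = y * x) (t : ℕ) :
    htV V t = t + 1 - Group.rank V := by
  classical
  exact if_pos hc

theorem htV_of_not {V : Type} [Group V] [Finite V] (hc : ¬ ∀ x y : V, x * y = y * x) (t : ℕ) :
    htV V t = 0 := by
  classical
  exact if_neg hc

/-- **T3**: over a noncommutative `p`-group some product of nontrivial characters has vanishing
Euler class, with a number of factors independent of `m`. -/
def T3Prop (p : ℕ) [Fact p.Prime] {E : MultTheory.{v}} (o : Orientation E) : Prop :=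
  ∀ (V : Type) [Group V] [Fintype V], IsPGroup p V → (¬ ∀ x y : V, x * y = y * x) →
    ∃ (κ : Type) (_ : Fintype κ) (_ : DecidableEq κ) (χ : κ → (V →* rootsOfUnity p ℂ)),
      (∀ k, χ k ≠ 1) ∧ ∀ m : ℕ, eulEM o (diagRep χ) m = 0

/-- **EUL.** For a `p`-group `V ≠ 1`, `t` and `L` there is a finite family of nontrivial characters
of order `p` with sum `U` such that for every `m` there are `M` and classes `c_i` over
`B_m = E_m/V` with `v_t ^ M • e(U) = ∑_{i < h} v_i ^ L • c_i`, `h = htV V t`. -/
theorem eul_main {p : ℕ} [hp : Fact p.Prime] {E : MultTheory.{v}} (o : Orientation E)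
    (hT3 : T3Prop p o) (V : Type) [Group V] [Fintype V] (hV : IsPGroup p V) [Nontrivial V]
    (t L : ℕ) :
    ∃ (κ : Type) (_ : Fintype κ) (_ : DecidableEq κ) (χ : κ → (V →* rootsOfUnity p ℂ)),
      (∀ k, χ k ≠ 1) ∧ ∀ m : ℕ, ∃ (M : ℕ) (c : ℕ → E.U (LC.of (BM V m))),
        vv p t o.law ^ M • eulEM o (diagRep χ) m =
          ∑ i ∈ Finset.range (htV V t), vv p i o.law ^ L • c i := by
  classical
  by_cases hc : ∀ x y : V, x * y = y * x
  · have := H122.finite_char (p := p) V
    letI : Fintype (ChGrp p V) := Fintype.ofFinite (V →* rootsOfUnity p ℂ)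
    have hr : 0 < Group.rank V := by
      rw [Nat.pos_iff_ne_zero]
      intro h0
      obtain ⟨S, hS, hS'⟩ := Group.rank_spec V
      rw [h0, Finset.card_eq_zero] at hS
      rw [hS, Finset.coe_empty, Subgroup.closure_empty] at hS'
      exact bot_ne_top hS'
    obtain ⟨K, hK⟩ := eul_of_comm o hc hV hr t L
    refine ⟨ChIdx p V K, inferInstance, inferInstance, chFam p V K, chFam_ne K, fun m => ?_⟩
    rw [htV_comm hc]
    exact hK m
  · obtain ⟨κ, h1, h2, χ, h3, h4⟩ := hT3 V hV hc
    refine ⟨κ, h1, h2, χ, h3, fun m => ⟨0, 0, ?_⟩⟩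
    rw [htV_of_not hc, Finset.range_zero, Finset.sum_empty, h4 m, smul_zero]

end main


end Vale.Agent.P241.H46
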