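import Vale.Agent.P241.H46.Kappa
import Vale.Agent.P241.H733.Defs

/-!
# P241: the join `EM V m` and helper733's model `Sph V m`

* `sphHomeo V m : Sph V m ≃ₜ EM V m`, equivariant;
* `qSph : Sph V m → BM V m`, `isQuoSph : IsQuo V qSph`;
* `frameSph U m : Frame (Sph V m) U (Fin m × k)`, with the same bundle over `BM V m` as
  `frameEM U m`.
-/

noncomputable section

namespace Vale.Agent.P241.H46

open Vale.Agent.P241.H733 Vale.Agent.P251.G Vale.Agent.P251.G.LC

section homeo

variable {V : Type} [Fintype V] {m : ℕ}

/-- a row of a point of the join as a point of the star -/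
def rowStar (x : EM V m) (i : Fin m) : H733.Star V :=
  ⟨x.co i, x.nonneg i, fun a b ha hb => by
    by_contra hab
    rcases x.row i hab with h | h
    exacts [ha h, hb h]⟩

theorem continuous_rowStar : Continuous (rowStar : EM V m → Fin m → H733.Star V) :=
  continuous_pi fun i => Star.continuous_mk (f := fun (x : EM V m) => rowStar x i) fun a =>
    (continuous_apply a).comp ((continuous_apply i).comp EM.continuous_co)

/-- the two models of the join -/
def sphHomeo (V : Type) [Fintype V] (m : ℕ) : Sph V m ≃ₜ EM V m where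
  toFun z := ⟨fun i v => z.val i v, fun i v => (z.val i).nonneg v, fun i v w h => by
    by_contra hc
    push Not at hc
    exact h ((z.val i).eq_of_ne_zero hc.1 hc.2), z.sum_nrm⟩
  invFun x := ⟨rowStar x, x.sum_eq⟩
  left_inv _ := rfl
  right_inv _ := rfl
  continuous_toFun := EM.continuous_mk (continuous_pi fun i =>
    Star.continuous_coe.comp ((continuous_apply i).comp Sph.continuous_val)) _
  continuous_invFun := Continuous.subtype_mk continuous_rowStar _

@[simp] theorem sphHomeo_co (z : Sph V m) (i : Fin m) (v : V) :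
    (sphHomeo V m z).co i v = z.val i v := rfl

variable [Group V]

theorem sphHomeo_smul (g : V) (z : Sph V m) : sphHomeo V m (g • z) = g • sphHomeo V m z := by
  ext i v
  rw [sphHomeo_co, Sph.smul_val, EM.smul_co, sphHomeo_co]
  rfl

/-- the quotient map -/
def qSph (z : Sph V m) : BM V m := qM (sphHomeo V m z)

theorem isQuoSph : EUL.IsQuo V (qSph : Sph V m → BM V m) where
  quot := isQuo.quot.comp (sphHomeo V m).isQuotientMap
  orb e e' := by
    refine (isQuo.orb _ _).trans ⟨?_, ?_⟩
    · rintro ⟨v, hv⟩
      exact ⟨v, (sphHomeo V m).injective (by rw [sphHomeo_smul, hv])⟩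
    · rintro ⟨v, hv⟩
      exact ⟨v, by rw [← sphHomeo_smul, hv]⟩

theorem continuous_qSph : Continuous (qSph : Sph V m → BM V m) := isQuoSph.quot.continuous

variable {k : Type} [Fintype k] [DecidableEq k]

/-- the frame over the model `Sph V m` -/
def frameSph (U : EUL.Rep V k) (m : ℕ) : EUL.Frame (Sph V m) U (Fin m × k) :=
  (frameEM U m).comap (sphHomeo V m) (sphHomeo V m).continuous sphHomeo_smul

theorem bun_frameSph (U : EUL.Rep V k) (m : ℕ) : (frameSph U m).bun isQuoSph = bunEM U m := by
  ext1
  funext b
  obtain ⟨e, rfl⟩ := isQuoSph.surj b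
  rw [EUL.Frame.bun_P]
  exact ((frameEM U m).bun_P isQuo (sphHomeo V m e)).symm

end homeo

end Vale.Agent.P241.H46
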