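import Vale.Agent.P251.Q.GoodBase
import Vale.Agent.P241.EUL.Frame
import Mathlib.Topology.Algebra.ConstMulAction
import Mathlib.Topology.Connected.PathConnected

/-!
# P241, block EUL-3: the joins `E_m` and their orbit spaces

`V` is a finite group. `EM V m` is the join of `m` copies of `V`: functions
`x : Fin m → V → ℝ`, `x ≥ 0`, with at most one nonzero entry in every row and with sum `1`.
`V` acts freely by `(g • x) i v = x i (g⁻¹ v)`; `BM V m` is the orbit space, `qM : EM V m → BM V m`.

* `EM V m`, `BM V m` are compact Hausdorff, `isQuo : IsQuo V qM`;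
* `CellSp (EM V m)`, `CellSp (BM V m)`: finite chains of cells; hence `GoodBase E (LC.of (BM V m))`;
* `PathConnectedSpace (BM V (m + 1))`.
-/

open Set Metric Topology

noncomputable section

namespace Vale.Agent.P241.H46

open Vale.Agent.P251.G Vale.Agent.P251.G.Cell Vale.Agent.P251.Q

/-! ### Attaching a cone -/

/-- Attaching a cone on a space with a chain of cells. `Θ s y`, `0 ≤ s ≤ 1`, are the rays, `a` is
the apex. -/
theorem chain_cone {F Y : Type} [TopologicalSpace F] [TopologicalSpace Y] {D : Set ℕ}
    (hF : CellChain D ∅ (univ : Set F)) {B C : Set Y} (hBC : B ⊆ C) {a : Y} (haB : a ∉ B)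
    (haC : a ∈ C) (Θ : unitInterval × F → Y) (hΘ : Continuous Θ)
    (h0 : ∀ y, Θ (0, y) ∈ B) (h1 : ∀ y, Θ (1, y) = a)
    (him : ∀ s y, s ≠ 0 → s ≠ 1 → Θ (s, y) ∈ C ∧ Θ (s, y) ∉ B ∧ Θ (s, y) ≠ a)
    (hi : ∀ s y s' y', s ≠ 0 → s ≠ 1 → s' ≠ 0 → s' ≠ 1 → Θ (s, y) = Θ (s', y') →
      s = s' ∧ y = y')
    (hsurj : ∀ x ∈ C, x ∉ B → x ≠ a → ∃ s y, s ≠ 0 ∧ s ≠ 1 ∧ Θ (s, y) = x) :
    CellChain (univ : Set ℕ) B C := by
  have hst := CellChain.single (D := (univ : Set ℕ)) (mem_univ 0) (cellStep_point (B := B) a haB)
  refine hst.trans ?_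
  -- the coordinate of the interval
  have hcl : ∀ t ∈ closedBall (0 : Euc 1) 1, -1 ≤ t 0 ∧ t 0 ≤ 1 := by
    intro t ht
    rw [mem_closedBall_zero_iff, EuclideanSpace.norm_eq, Fin.sum_univ_one, Real.norm_eq_abs,
      sq_abs, Real.sqrt_sq_eq_abs] at ht
    exact abs_le.1 ht
  have hop : ∀ t ∈ ball (0 : Euc 1) 1, -1 < t 0 ∧ t 0 < 1 := by
    intro t ht
    rw [mem_ball_zero_iff, EuclideanSpace.norm_eq, Fin.sum_univ_one, Real.norm_eq_abs,
      sq_abs, Real.sqrt_sq_eq_abs] at ht
    exact abs_lt.1 ht
  have hsp : ∀ t ∈ sphere (0 : Euc 1) 1, t 0 = 1 ∨ t 0 = -1 := by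
    intro t ht
    rw [mem_sphere_zero_iff_norm, EuclideanSpace.norm_eq, Fin.sum_univ_one, Real.norm_eq_abs,
      sq_abs, Real.sqrt_sq_eq_abs] at ht
    exact (abs_eq zero_le_one).1 ht
  let sg : Euc 1 → unitInterval := fun t => Set.projIcc 0 1 zero_le_one ((1 + t 0) / 2)
  have hsgc : Continuous sg := by
    refine continuous_projIcc.comp ?_
    have : Continuous fun t : Euc 1 => t 0 := by fun_prop
    fun_prop
  have hsgv : ∀ t : Euc 1, -1 ≤ t 0 → t 0 ≤ 1 → ((sg t : unitInterval) : ℝ) = (1 + t 0) / 2 := by
    intro t h h'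
    simp only [sg]
    rw [Set.projIcc_of_mem zero_le_one (x := (1 + t 0) / 2) ⟨by linarith, by linarith⟩]
  have hne : ∀ t ∈ ball (0 : Euc 1) 1, sg t ≠ 0 ∧ sg t ≠ 1 := by
    intro t ht
    obtain ⟨h2, h3⟩ := hop t ht
    have h4 := hsgv t h2.le h3.le
    constructor
    · intro h
      rw [h] at h4
      simp at h4
      linarith
    · intro h
      rw [h] at h4
      simp at h4
      linarith
  have key := hF.fibre (a := 1) (B := insert a B) (C := C) (insert_subset haC hBC)
    (fun p => Θ (sg p.1, p.2)) ?_ ?_ ?_ ?_ ?_ ?_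
  · exact key.mono (subset_univ _)
  · exact (hΘ.comp ((hsgc.comp continuous_fst).prodMk continuous_snd)).continuousOn
  · intro t ht y _
    rcases hsp t ht with h | h
    · have : sg t = 1 := by
        apply Subtype.ext
        rw [hsgv t (by linarith) (by linarith), h]
        norm_num
      rw [this, h1]
      exact mem_insert _ _
    · have : sg t = 0 := by
        apply Subtype.ext
        rw [hsgv t (by linarith) (by linarith), h]
        norm_num
      rw [this]
      exact mem_insert_of_mem _ (h0 y)
  · intro t _ y hy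
    exact absurd hy (notMem_empty _)
  · rintro t ht y _ t' ht' y' _ h
    obtain ⟨e1, e2⟩ := hi _ _ _ _ (hne t ht).1 (hne t ht).2 (hne t' ht').1 (hne t' ht').2 h
    refine ⟨?_, e2⟩
    have h2 := congrArg (fun s : unitInterval => (s : ℝ)) e1
    change (sg t : ℝ) = (sg t' : ℝ) at h2
    rw [hsgv t (hop t ht).1.le (hop t ht).2.le, hsgv t' (hop t' ht').1.le (hop t' ht').2.le] at h2
    ext i
    fin_cases i
    simpa using h2
  · intro t ht y _
    obtain ⟨h2, h3, h4⟩ := him _ y (hne t ht).1 (hne t ht).2
    exact ⟨h2, fun h => h.elim h4 h3⟩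
  · rintro x ⟨hxC, hx⟩
    rw [mem_insert_iff, not_or] at hx
    obtain ⟨s, y, hs0, hs1, rfl⟩ := hsurj x hxC hx.2 hx.1
    have hs0' : 0 < (s : ℝ) := lt_of_le_of_ne s.2.1 fun h => hs0 (Subtype.ext h.symm)
    have hs1' : (s : ℝ) < 1 := lt_of_le_of_ne s.2.2 fun h => hs1 (Subtype.ext h)
    let t : Euc 1 := EuclideanSpace.single 0 (2 * (s : ℝ) - 1)
    have ht0 : t 0 = 2 * (s : ℝ) - 1 := by simp [t]
    have ht : t ∈ ball (0 : Euc 1) 1 := by
      rw [mem_ball_zero_iff, EuclideanSpace.norm_eq, Fin.sum_univ_one, Real.norm_eq_abs,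
        sq_abs, Real.sqrt_sq_eq_abs, ht0, abs_lt]
      constructor <;> linarith
    refine ⟨t, ht, y, ⟨mem_univ _, notMem_empty _⟩, ?_⟩
    have : sg t = s := by
      apply Subtype.ext
      rw [hsgv t (hop t ht).1.le (hop t ht).2.le, ht0]
      ring
    simp only [this]

/-! ### The joins -/

section EM

variable (V : Type) [Fintype V] (m : ℕ)

/-- the join of `m` copies of `V`, as a set -/
def emSet : Set (Fin m → V → ℝ) :=
  {x | (∀ i v, 0 ≤ x i v) ∧ (∀ i v w, v ≠ w → x i v = 0 ∨ x i w = 0) ∧ ∑ i, ∑ v, x i v = 1}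

/-- the join of `m` copies of `V` -/
def EM : Type := emSet V m

instance : TopologicalSpace (EM V m) := inferInstanceAs (TopologicalSpace (emSet V m))

instance : T2Space (EM V m) := inferInstanceAs (T2Space (emSet V m))

variable {V m}

theorem isClosed_emSet : IsClosed (emSet V m) := by
  have h : emSet V m = (⋂ i, ⋂ v, {x | 0 ≤ x i v}) ∩
      ((⋂ i, ⋂ v, ⋂ w, ⋂ (_ : v ≠ w), ({x | x i v = 0} ∪ {x | x i w = 0})) ∩
        {x | ∑ i, ∑ v, x i v = 1}) := by
    ext x
    simp [emSet]
  rw [h]
  refine (isClosed_iInter fun i => isClosed_iInter fun v =>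
    isClosed_le continuous_const (by fun_prop)).inter (IsClosed.inter ?_ ?_)
  · exact isClosed_iInter fun i => isClosed_iInter fun v => isClosed_iInter fun w =>
      isClosed_iInter fun _ => (isClosed_eq (by fun_prop) continuous_const).union
        (isClosed_eq (by fun_prop) continuous_const)
  · exact isClosed_eq (by fun_prop) continuous_const

theorem isCompact_emSet : IsCompact (emSet V m) := by
  refine (isCompact_Icc (a := (0 : Fin m → V → ℝ)) (b := 1)).of_isClosed_subset isClosed_emSet ?_
  rintro x ⟨h0, -, h1⟩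
  refine ⟨fun i v => h0 i v, fun i v => ?_⟩
  change x i v ≤ 1
  rw [← h1]
  exact (Finset.single_le_sum (f := x i) (fun w _ => h0 i w) (Finset.mem_univ v)).trans
    (Finset.single_le_sum (f := fun i => ∑ v, x i v)
      (fun j _ => Finset.sum_nonneg fun w _ => h0 j w) (Finset.mem_univ i))

instance : CompactSpace (EM V m) := isCompact_iff_compactSpace.1 isCompact_emSet

instance : LocallyCompactSpace (EM V m) := inferInstance

namespace EM

/-- the coordinates -/
def co (x : EM V m) : Fin m → V → ℝ := x.1

theorem continuous_co : Continuous (co : EM V m → Fin m → V → ℝ) := continuous_subtype_val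

@[ext] theorem ext' {x y : EM V m} (h : ∀ i v, x.co i v = y.co i v) : x = y :=
  Subtype.ext (funext fun i => funext fun v => h i v)

theorem nonneg (x : EM V m) (i : Fin m) (v : V) : 0 ≤ x.co i v := x.2.1 i v

theorem row (x : EM V m) (i : Fin m) {v w : V} (h : v ≠ w) : x.co i v = 0 ∨ x.co i w = 0 :=
  x.2.2.1 i v w h

theorem sum_eq (x : EM V m) : ∑ i, ∑ v, x.co i v = 1 := x.2.2.2

/-- a continuous map into `EM` -/
theorem continuous_mk {X : Type*} [TopologicalSpace X] {f : X → Fin m → V → ℝ}
    (hf : Continuous f) (h : ∀ x, f x ∈ emSet V m) :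
    Continuous (fun x => (⟨f x, h x⟩ : EM V m)) := hf.subtype_mk h

theorem exists_ne (x : EM V m) : ∃ i v, x.co i v ≠ 0 := by
  by_contra h
  push Not at h
  have := x.sum_eq
  simp [h] at this

end EM

end EM

section action

variable {V : Type} [Fintype V] [Group V] {m : ℕ}

namespace EM

instance : SMul V (EM V m) where
  smul g x := ⟨fun i v => x.co i (g⁻¹ * v), fun i v => x.nonneg i _, fun i v w h =>
    x.row i fun h' => h (mul_left_cancel h'), by
    rw [← x.sum_eq]
    exact Finset.sum_congr rfl fun i _ =>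
      Fintype.sum_equiv (Equiv.mulLeft g⁻¹) _ _ fun v => rfl⟩

@[simp] theorem smul_co (g : V) (x : EM V m) (i : Fin m) (v : V) :
    (g • x).co i v = x.co i (g⁻¹ * v) := rfl

instance : MulAction V (EM V m) where
  one_smul x := by ext i v; simp
  mul_smul g h x := by ext i v; simp [mul_assoc]

theorem continuous_smul (g : V) : Continuous fun x : EM V m => g • x := by
  refine continuous_mk ?_ _
  exact continuous_pi fun i => continuous_pi fun v =>
    (continuous_apply _).comp ((continuous_apply _).comp continuous_co)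

instance : ContinuousConstSMul V (EM V m) := ⟨continuous_smul⟩

/-- the action is free -/
theorem eq_one_of_smul_eq {g : V} {x : EM V m} (h : g • x = x) : g = 1 := by
  obtain ⟨i, v, hv⟩ := x.exists_ne
  have h1 := congrArg (fun y : EM V m => y.co i (g * v)) h
  simp only [smul_co, inv_mul_cancel_left] at h1
  by_contra hg
  have h2 : g * v ≠ v := fun h' => hg (mul_eq_right.1 h')
  rcases x.row i h2 with h3 | h3
  · exact hv (h1.trans h3)
  · exact hv h3

end EM

variable (V m) in
/-- the orbit space of the join -/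
def BM : Type := MulAction.orbitRel.Quotient V (EM V m)

instance : TopologicalSpace (BM V m) :=
  inferInstanceAs (TopologicalSpace (MulAction.orbitRel.Quotient V (EM V m)))

instance : T2Space (BM V m) :=
  inferInstanceAs (T2Space (Quotient (MulAction.orbitRel V (EM V m))))

instance : CompactSpace (BM V m) :=
  inferInstanceAs (CompactSpace (Quotient (MulAction.orbitRel V (EM V m))))

instance : LocallyCompactSpace (BM V m) := inferInstance

/-- the quotient map -/
def qM (x : EM V m) : BM V m := Quotient.mk (MulAction.orbitRel V (EM V m)) x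

theorem isQuo : EUL.IsQuo V (qM : EM V m → BM V m) where
  quot := isQuotientMap_quotient_mk'
  orb e e' := by
    refine (Quotient.eq (r := MulAction.orbitRel V (EM V m))).trans ?_
    rw [MulAction.orbitRel_apply, MulAction.mem_orbit_iff]
    constructor
    · rintro ⟨v, hv⟩
      exact ⟨v⁻¹, by rw [← hv, inv_smul_smul]⟩
    · rintro ⟨v, hv⟩
      exact ⟨v⁻¹, by rw [← hv, inv_smul_smul]⟩

theorem continuous_qM : Continuous (qM : EM V m → BM V m) := isQuo.quot.continuous

end action

/-! ### The cone structure -/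

section cone

variable {V : Type} [Fintype V] {m : ℕ}

open scoped Classical in
theorem cone_mem (v : V) (s : unitInterval) (y : EM V m) :
    (Fin.cons (fun w => if w = v then (s : ℝ) else 0) (fun i w => (1 - (s : ℝ)) * y.co i w) :
      Fin (m + 1) → V → ℝ) ∈ emSet V (m + 1) := by
  refine ⟨fun i w => ?_, fun i w w' h => ?_, ?_⟩
  · refine Fin.cases ?_ (fun i => ?_) i
    · simp only [Fin.cons_zero]
      split_ifs
      · exact s.2.1
      · exact le_rfl
    · simp only [Fin.cons_succ]
      exact mul_nonneg (by linarith [s.2.2]) (y.nonneg i w)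
  · refine Fin.cases ?_ (fun i => ?_) i
    · simp only [Fin.cons_zero]
      by_cases h1 : w = v
      · right
        rw [if_neg (fun h2 => h (h1.trans h2.symm))]
      · left
        rw [if_neg h1]
    · simp only [Fin.cons_succ]
      rcases y.row i h with h1 | h1
      · left; rw [h1, mul_zero]
      · right; rw [h1, mul_zero]
  · rw [Fin.sum_univ_succ]
    simp only [Fin.cons_zero, Fin.cons_succ, Finset.sum_ite_eq', Finset.mem_univ, if_true]
    simp only [← Finset.mul_sum]
    rw [y.sum_eq]
    ring

open scoped Classical in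
/-- the ray from `y` to the vertex with label `v` in the row `0` -/
def coneM (v : V) (p : unitInterval × EM V m) : EM V (m + 1) :=
  ⟨Fin.cons (fun w => if w = v then (p.1 : ℝ) else 0) (fun i w => (1 - (p.1 : ℝ)) * p.2.co i w),
    cone_mem v p.1 p.2⟩

open scoped Classical in
theorem coneM_zero (v : V) (p : unitInterval × EM V m) (w : V) :
    (coneM v p).co 0 w = if w = v then (p.1 : ℝ) else 0 := rfl

theorem coneM_succ (v : V) (p : unitInterval × EM V m) (i : Fin m) (w : V) :
    (coneM v p).co i.succ w = (1 - (p.1 : ℝ)) * p.2.co i w := rfl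

theorem coneM_self (v : V) (p : unitInterval × EM V m) : (coneM v p).co 0 v = p.1 := by
  rw [coneM_zero, if_pos rfl]

theorem coneM_ne {v w : V} (h : w ≠ v) (p : unitInterval × EM V m) : (coneM v p).co 0 w = 0 := by
  rw [coneM_zero, if_neg h]

theorem continuous_coneM (v : V) : Continuous (coneM v : unitInterval × EM V m → _) := by
  classical
  refine EM.continuous_mk ?_ _
  refine continuous_pi fun i => continuous_pi fun w => ?_
  refine Fin.cases ?_ (fun i => ?_) i
  · simp only [Fin.cons_zero]
    split_ifs
    · fun_prop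
    · fun_prop
  · simp only [Fin.cons_succ]
    have : Continuous fun p : unitInterval × EM V m => p.2.co i w :=
      (continuous_apply w).comp ((continuous_apply i).comp (EM.continuous_co.comp continuous_snd))
    fun_prop

/-- the vertex with label `v` in the row `0` -/
def vert (v : V) : EM V (m + 1) := by
  classical
  exact ⟨Fin.cons (fun w => if w = v then 1 else 0) (fun _ _ => 0), by
    refine ⟨fun i w => ?_, fun i w w' h => ?_, ?_⟩
    · refine Fin.cases ?_ (fun i => ?_) i
      · simp only [Fin.cons_zero]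
        split_ifs
        · exact zero_le_one
        · exact le_rfl
      · exact le_rfl
    · refine Fin.cases ?_ (fun i => ?_) i
      · simp only [Fin.cons_zero]
        by_cases h1 : w = v
        · right
          rw [if_neg (fun h2 => h (h1.trans h2.symm))]
        · left
          rw [if_neg h1]
      · left; rfl
    · rw [Fin.sum_univ_succ]
      simp⟩

theorem vert_self (v : V) : (vert v : EM V (m + 1)).co 0 v = 1 := if_pos rfl

theorem vert_ne {v w : V} (h : w ≠ v) : (vert v : EM V (m + 1)).co 0 w = 0 := if_neg h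

theorem vert_succ (v : V) (i : Fin m) (w : V) : (vert v : EM V (m + 1)).co i.succ w = 0 := rfl

theorem coneM_one (v : V) (y : EM V m) : coneM v (1, y) = vert v := by
  ext i w
  refine Fin.cases ?_ (fun i => ?_) i
  · by_cases h : w = v
    · subst h
      rw [coneM_self, vert_self]
      rfl
    · rw [coneM_ne h, vert_ne h]
  · rw [coneM_succ, vert_succ]
    simp

/-- the inclusion of the points whose row `0` vanishes -/
def iM (y : EM V m) : EM V (m + 1) :=
  ⟨Fin.cons (fun _ => 0) y.co, by
    refine ⟨fun i w => ?_, fun i w w' h => ?_, ?_⟩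
    · refine Fin.cases ?_ (fun i => ?_) i
      · exact le_rfl
      · exact y.nonneg i w
    · refine Fin.cases ?_ (fun i => ?_) i
      · left; rfl
      · exact y.row i h
    · rw [Fin.sum_univ_succ]
      simp only [Fin.cons_zero, Fin.cons_succ, Finset.sum_const_zero, zero_add]
      exact y.sum_eq⟩

theorem iM_zero (y : EM V m) (w : V) : (iM y).co 0 w = 0 := rfl

theorem iM_succ (y : EM V m) (i : Fin m) (w : V) : (iM y).co i.succ w = y.co i w := rfl

theorem coneM_zero' (v : V) (y : EM V m) : coneM v (0, y) = iM y := by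
  ext i w
  refine Fin.cases ?_ (fun i => ?_) i
  · by_cases h : w = v
    · subst h
      rw [coneM_self, iM_zero]
      rfl
    · rw [coneM_ne h, iM_zero]
  · rw [coneM_succ, iM_succ]
    simp

theorem continuous_iM : Continuous (iM : EM V m → EM V (m + 1)) := by
  refine EM.continuous_mk ?_ _
  refine continuous_pi fun i => continuous_pi fun w => ?_
  refine Fin.cases ?_ (fun i => ?_) i
  · exact continuous_const
  · exact (continuous_apply w).comp ((continuous_apply i).comp EM.continuous_co)

theorem iM_injective : Function.Injective (iM : EM V m → EM V (m + 1)) := by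
  intro y y' h
  ext i w
  rw [← iM_succ y i w, ← iM_succ y' i w, h]

/-- a point whose row `0` vanishes -/
theorem exists_iM {x : EM V (m + 1)} (h : ∀ v, x.co 0 v = 0) : ∃ y, iM y = x := by
  have h1 : (fun (i : Fin m) w => x.co i.succ w) ∈ emSet V m := by
    refine ⟨fun i w => x.nonneg _ w, fun i w w' h => x.row _ h, ?_⟩
    have := x.sum_eq
    rw [Fin.sum_univ_succ] at this
    simpa [h] using this
  refine ⟨⟨_, h1⟩, ?_⟩
  ext i w
  refine Fin.cases ?_ (fun i => ?_) i
  · exact (h w).symm
  · rfl

/-- the other points -/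
theorem exists_cone {x : EM V (m + 1)} {v : V} (h : x.co 0 v ≠ 0) (h' : x ≠ vert v) :
    ∃ (s : unitInterval) (y : EM V m), s ≠ 0 ∧ s ≠ 1 ∧ coneM v (s, y) = x := by
  have hs0 : 0 < x.co 0 v := lt_of_le_of_ne (x.nonneg 0 v) (Ne.symm h)
  have hrow : ∀ w, w ≠ v → x.co 0 w = 0 := fun w hw => (x.row 0 hw).resolve_right h
  have hsum : x.co 0 v + ∑ i : Fin m, ∑ w, x.co i.succ w = 1 := by
    have := x.sum_eq
    rw [Fin.sum_univ_succ] at this
    rwa [Finset.sum_eq_single v (fun w _ hw => hrow w hw)
      (fun h => absurd (Finset.mem_univ v) h)] at this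
  have hnn : 0 ≤ ∑ i : Fin m, ∑ w, x.co i.succ w :=
    Finset.sum_nonneg fun i _ => Finset.sum_nonneg fun w _ => x.nonneg _ w
  have hs1 : x.co 0 v ≤ 1 := by linarith
  have hs1' : x.co 0 v ≠ 1 := by
    intro h1
    apply h'
    have h2 : ∑ i : Fin m, ∑ w, x.co i.succ w = 0 := by linarith
    ext i w
    refine Fin.cases ?_ (fun i => ?_) i
    · by_cases hw : w = v
      · subst hw
        rw [h1, vert_self]
      · rw [hrow w hw, vert_ne hw]
    · rw [vert_succ]
      have h3 := (Finset.sum_eq_zero_iff_of_nonneg fun i _ =>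
        Finset.sum_nonneg fun w _ => x.nonneg i.succ w).1 h2 i (Finset.mem_univ i)
      exact (Finset.sum_eq_zero_iff_of_nonneg fun w _ => x.nonneg i.succ w).1 h3 w
        (Finset.mem_univ w)
  have hpos : 0 < 1 - x.co 0 v := by
    have := lt_of_le_of_ne hs1 hs1'
    linarith
  refine ⟨⟨x.co 0 v, hs0.le, hs1⟩, ⟨fun i w => (1 - x.co 0 v)⁻¹ * x.co i.succ w, fun i w =>
    mul_nonneg (inv_nonneg.2 hpos.le) (x.nonneg _ w), fun i w w' hw => ?_, ?_⟩, ?_, ?_, ?_⟩
  · rcases x.row i.succ hw with h1 | h1
    · left
      change (1 - x.co 0 v)⁻¹ * x.co i.succ w = 0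
      rw [h1, mul_zero]
    · right
      change (1 - x.co 0 v)⁻¹ * x.co i.succ w' = 0
      rw [h1, mul_zero]
  · simp only [← Finset.mul_sum]
    rw [show ∑ i : Fin m, ∑ w, x.co i.succ w = 1 - x.co 0 v by linarith]
    exact inv_mul_cancel₀ hpos.ne'
  · intro h1
    exact h (congrArg Subtype.val h1)
  · intro h1
    exact hs1' (congrArg Subtype.val h1)
  · ext i w
    refine Fin.cases ?_ (fun i => ?_) i
    · by_cases hw : w = v
      · subst hw
        rw [coneM_self]
      · rw [coneM_ne hw, hrow w hw]
    · rw [coneM_succ]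
      change (1 - x.co 0 v) * ((1 - x.co 0 v)⁻¹ * x.co i.succ w) = _
      rw [mul_inv_cancel_left₀ hpos.ne']

theorem coneM_inj {v : V} {s s' : unitInterval} {y y' : EM V m} (hs : s ≠ 1)
    (h : coneM v (s, y) = coneM v (s', y')) : s = s' ∧ y = y' := by
  have h1 : s = s' := by
    apply Subtype.ext
    have := congrArg (fun x : EM V (m + 1) => x.co 0 v) h
    simpa only [coneM_self] using this
  refine ⟨h1, ?_⟩
  subst h1
  ext i w
  have := congrArg (fun x : EM V (m + 1) => x.co i.succ w) h
  simp only [coneM_succ] at this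
  exact mul_left_cancel₀ (fun h2 => hs (Subtype.ext (by
    change (s : ℝ) = 1
    linarith))) this

theorem coneM_ne_vert {v : V} {s : unitInterval} {y : EM V m} (hs : s ≠ 1) :
    coneM v (s, y) ≠ vert v := by
  intro h
  apply hs
  apply Subtype.ext
  have := congrArg (fun x : EM V (m + 1) => x.co 0 v) h
  simp only [coneM_self, vert_self] at this
  exact this

end cone

/-! ### Cells -/

section cells

theorem isEmpty_EM (V : Type) [Fintype V] : IsEmpty (EM V 0) :=
  ⟨fun x => by simpa using x.sum_eq⟩

theorem chain_EM (V : Type) [Fintype V] (m : ℕ) :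
    CellChain (univ : Set ℕ) ∅ (univ : Set (EM V m)) := by
  classical
  induction m with
  | zero =>
    have := isEmpty_EM V
    rw [show (univ : Set (EM V 0)) = ∅ from eq_empty_of_isEmpty _]
    exact CellChain.refl _
  | succ m ih =>
    have key : ∀ S : Finset V,
        CellChain (univ : Set ℕ) ∅ {x : EM V (m + 1) | ∀ v ∉ S, x.co 0 v = 0} := by
      intro S
      induction S using Finset.induction_on with
      | empty =>
        have h := ih.image (f := (iM : EM V m → EM V (m + 1))) continuous_iM.continuousOn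
          iM_injective.injOn
        rw [image_empty, image_univ] at h
        have h2 : {x : EM V (m + 1) | ∀ v ∉ (∅ : Finset V), x.co 0 v = 0} = range iM := by
          ext x
          constructor
          · intro hx
            exact exists_iM fun v => hx v (Finset.notMem_empty v)
          · rintro ⟨y, rfl⟩ v _
            exact iM_zero y v
        rw [h2]
        exact h
      | insert v S hv ihS =>
        refine ihS.trans (chain_cone ih (a := vert v) ?_ ?_ ?_ (coneM v) (continuous_coneM v)
          ?_ (coneM_one v) ?_ ?_ ?_)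
        · intro x hx w hw
          exact hx w fun h => hw (Finset.mem_insert_of_mem h)
        · intro h
          have := h v hv
          rw [vert_self] at this
          exact one_ne_zero this
        · intro w hw
          exact vert_ne fun h => hw (h ▸ Finset.mem_insert_self _ _)
        · intro y w _
          rw [coneM_zero', iM_zero]
        · intro s y hs0 hs1
          refine ⟨fun w hw => coneM_ne (by rintro rfl; exact hw (Finset.mem_insert_self _ _)) _,
            fun h => hs0 ?_, coneM_ne_vert hs1⟩
          have := h v hv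
          rw [coneM_self] at this
          exact Subtype.ext this
        · intro s y s' y' _ hs1 _ _ h
          exact coneM_inj hs1 h
        · intro x hx hxS hxv
          have h1 : x.co 0 v ≠ 0 := by
            intro h
            apply hxS
            intro w hw
            by_cases hwv : w = v
            · rw [hwv, h]
            · exact hx w fun h' => (Finset.mem_insert.1 h').elim hwv hw
          exact exists_cone h1 hxv
    have := key Finset.univ
    rwa [show {x : EM V (m + 1) | ∀ v ∉ (Finset.univ : Finset V), x.co 0 v = 0} = univ from by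
      ext x; simp] at this

instance (V : Type) [Fintype V] (m : ℕ) : CellSp (EM V m) := ⟨_, chain_EM V m⟩

variable {V : Type} [Fintype V] [Group V] {m : ℕ}

theorem smul_coneM (g v : V) (s : unitInterval) (y : EM V m) :
    g • coneM v (s, y) = coneM (g * v) (s, g • y) := by
  ext i w
  refine Fin.cases ?_ (fun i => ?_) i
  · by_cases h : w = g * v
    · subst h
      rw [coneM_self, EM.smul_co, inv_mul_cancel_left, coneM_self]
    · rw [coneM_ne h, EM.smul_co, coneM_ne]
      rintro rfl
      exact h (by simp)
  · rfl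

theorem smul_vert (g v : V) : g • (vert v : EM V (m + 1)) = vert (g * v) := by
  ext i w
  refine Fin.cases ?_ (fun i => ?_) i
  · by_cases h : w = g * v
    · subst h
      rw [vert_self, EM.smul_co, inv_mul_cancel_left, vert_self]
    · rw [vert_ne h, EM.smul_co, vert_ne]
      rintro rfl
      exact h (by simp)
  · rfl

theorem smul_iM (g : V) (y : EM V m) : g • iM y = iM (g • y) := by
  ext i w
  refine Fin.cases ?_ (fun i => ?_) i
  · rfl
  · rfl

theorem qM_eq {x x' : EM V m} : qM x = qM x' ↔ ∃ g : V, g • x = x' := isQuo.orb x x'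

theorem qM_surj : Function.Surjective (qM : EM V m → BM V m) := isQuo.surj

/-- the inclusion `B_m → B_(m+1)` -/
def jM : BM V m → BM V (m + 1) := isQuo.desc fun y => qM (iM y)

theorem jM_qM (y : EM V m) : jM (qM y) = qM (iM y) :=
  isQuo.desc_apply (f := fun y => qM (iM y)) (fun v e => by
    rw [← smul_iM]
    exact isQuo.smul v _) y

theorem continuous_jM : Continuous (jM : BM V m → BM V (m + 1)) :=
  isQuo.continuous_desc (continuous_qM.comp continuous_iM) fun v e => by
    change qM (iM (v • e)) = qM (iM e)
    rw [← smul_iM]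
    exact isQuo.smul v _

theorem jM_injective : Function.Injective (jM : BM V m → BM V (m + 1)) := by
  intro b b' h
  obtain ⟨y, rfl⟩ := qM_surj b
  obtain ⟨y', rfl⟩ := qM_surj b'
  rw [jM_qM, jM_qM, qM_eq] at h
  obtain ⟨g, hg⟩ := h
  rw [smul_iM] at hg
  exact qM_eq.2 ⟨g, iM_injective hg⟩

theorem chain_BM (V : Type) [Fintype V] [Group V] (m : ℕ) :
    CellChain (univ : Set ℕ) ∅ (univ : Set (BM V m)) := by
  induction m with
  | zero =>
    have : IsEmpty (BM V 0) := ⟨fun b => by
      obtain ⟨x, -⟩ := qM_surj b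
      exact (isEmpty_EM V).false x⟩
    rw [show (univ : Set (BM V 0)) = ∅ from eq_empty_of_isEmpty _]
    exact CellChain.refl _
  | succ m ih =>
    have h := ih.image (f := (jM : BM V m → BM V (m + 1))) continuous_jM.continuousOn
      jM_injective.injOn
    rw [image_empty, image_univ] at h
    refine h.trans (chain_cone (chain_EM V m) (a := qM (vert 1)) (subset_univ _) ?_ (mem_univ _)
      (fun p => qM (coneM 1 p)) (continuous_qM.comp (continuous_coneM 1)) ?_ ?_ ?_ ?_ ?_)
    · rintro ⟨b, hb⟩
      obtain ⟨y, rfl⟩ := qM_surj b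
      rw [jM_qM, qM_eq] at hb
      obtain ⟨g, hg⟩ := hb
      have h1 := congrArg (fun x : EM V (m + 1) => x.co 0 1) hg
      simp only [smul_iM, iM_zero, vert_self] at h1
      exact zero_ne_one h1
    · intro y
      rw [coneM_zero', ← jM_qM]
      exact mem_range_self _
    · intro y
      rw [coneM_one]
    · intro s y hs0 hs1
      refine ⟨mem_univ _, ?_, ?_⟩
      · rintro ⟨b, hb⟩
        obtain ⟨y', rfl⟩ := qM_surj b
        rw [jM_qM, qM_eq] at hb
        obtain ⟨g, hg⟩ := hb
        have h1 := congrArg (fun x : EM V (m + 1) => x.co 0 1) hg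
        simp only [smul_iM, iM_zero, coneM_self] at h1
        exact hs0 (Subtype.ext h1.symm)
      · intro hb
        obtain ⟨g, hg⟩ := qM_eq.1 hb
        have h1 := congrArg (fun x : EM V (m + 1) => x.co 0 1) hg
        rw [smul_coneM] at h1
        simp only [vert_self] at h1
        by_cases hg1 : g = 1
        · subst hg1
          rw [mul_one, coneM_self] at h1
          exact hs1 (Subtype.ext h1)
        · rw [mul_one, coneM_ne (Ne.symm hg1)] at h1
          exact zero_ne_one h1
    · intro s y s' y' hs0 hs1 hs0' _ hb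
      obtain ⟨g, hg⟩ := qM_eq.1 hb
      rw [smul_coneM, mul_one] at hg
      have hg1 : g = 1 := by
        by_contra hg1
        have h1 := congrArg (fun x : EM V (m + 1) => x.co 0 1) hg
        simp only [coneM_ne (Ne.symm hg1), coneM_self] at h1
        exact hs0' (Subtype.ext h1.symm)
      subst hg1
      rw [one_smul] at hg
      exact coneM_inj hs1 hg
    · intro b _ hb hba
      obtain ⟨x, rfl⟩ := qM_surj b
      have h1 : ∃ v, x.co 0 v ≠ 0 := by
        by_contra h1
        push Not at h1
        obtain ⟨y, rfl⟩ := exists_iM h1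
        exact hb ⟨qM y, jM_qM y⟩
      obtain ⟨v, hv⟩ := h1
      have h2 : (v⁻¹ • x).co 0 1 ≠ 0 := by
        rw [EM.smul_co, inv_inv, mul_one]
        exact hv
      have h3 : qM (v⁻¹ • x) = qM x := isQuo.smul _ _
      obtain ⟨s, y, hs0, hs1, hsy⟩ := exists_cone h2 (fun h => hba (by rw [← h3, h]))
      exact ⟨s, y, hs0, hs1, by rw [← h3, ← hsy]⟩

instance (V : Type) [Fintype V] [Group V] (m : ℕ) : CellSp (BM V m) := ⟨_, chain_BM V m⟩

instance (V : Type) [Fintype V] (m : ℕ) : CellSp (LC.of (EM V m)) :=
  inferInstanceAs (CellSp (EM V m))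

instance (V : Type) [Fintype V] [Group V] (m : ℕ) : CellSp (LC.of (BM V m)) :=
  inferInstanceAs (CellSp (BM V m))

end cells

/-! ### Connectedness -/

section conn

variable {V : Type} [Fintype V] [Group V] {m : ℕ}

theorem joined_vert (x : EM V (m + 1)) : Joined (qM x) (qM (vert 1 : EM V (m + 1))) := by
  have key : ∀ y : EM V m, ∀ s : unitInterval,
      Joined (qM (coneM 1 (s, y)) : BM V (m + 1)) (qM (vert 1)) := by
    intro y s
    have hI : PathConnectedSpace unitInterval :=
      isPathConnected_iff_pathConnectedSpace.1 ((convex_Icc (0 : ℝ) 1).isPathConnected ⟨0, by simp⟩)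
    have h1 : Joined (s, y) ((1 : unitInterval), y) :=
      (PathConnectedSpace.joined s 1).prod (Joined.refl y)
    have h2 := h1.map (f := fun p : unitInterval × EM V m => (qM (coneM 1 p) : BM V (m + 1)))
      (continuous_qM.comp (continuous_coneM 1))
    simp only [coneM_one] at h2
    exact h2
  by_cases h1 : ∃ v, x.co 0 v ≠ 0
  · obtain ⟨v, hv⟩ := h1
    have h2 : (v⁻¹ • x).co 0 1 ≠ 0 := by
      rw [EM.smul_co, inv_inv, mul_one]
      exact hv
    have h3 : qM (v⁻¹ • x) = qM x := isQuo.smul _ _
    rw [← h3]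
    by_cases h4 : v⁻¹ • x = vert 1
    · rw [h4]
    · obtain ⟨s, y, -, -, hsy⟩ := exists_cone h2 h4
      rw [← hsy]
      exact key y s
  · push Not at h1
    obtain ⟨y, rfl⟩ := exists_iM h1
    rw [← coneM_zero' 1]
    exact key y 0

instance : PathConnectedSpace (BM V (m + 1)) where
  nonempty := ⟨qM (vert 1)⟩
  joined b b' := by
    obtain ⟨x, rfl⟩ := qM_surj b
    obtain ⟨x', rfl⟩ := qM_surj b'
    exact (joined_vert x).trans (joined_vert x').symm

end conn

end Vale.Agent.P241.H46
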