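import Vale.Agent.P241.H46.Base
import Vale.Agent.P241.H302.StarFrame
import Vale.Agent.P241.EUL.Compl
import Vale.Agent.P251.St.ToLC

/-!
# P241: the frames on `E_m`, the complements `κ` over `B_m = E_m/V`

* `frameEM U m : Frame (EM V m) U (Fin m × k)` for every unitary representation `U`;
* `bunEM U m : Bun (BM V m) (Fin m × k)` of rank `#k`, its complement `kapEM U m`;
* `fc_kapEM`, `fcSt_kapEM` : the total space of the complement is a finite cell space.
-/

open Matrix

noncomputable section

namespace Vale.Agent.P241.H46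

open Vale.Agent.P251.G Vale.Agent.P251.G.LC Vale.Agent.P251.Q Vale.Agent.P241

variable {V : Type} [Group V] [Fintype V] {k : Type} [Fintype k] [DecidableEq k]

theorem EM.isStar {m : ℕ} (x : EM V m) : H302.IsStar x.co where
  disj i v w h := by
    rcases x.row i h with h | h
    · rw [h, zero_mul]
    · rw [h, mul_zero]
  ne h := by
    obtain ⟨i, v, hv⟩ := x.exists_ne
    exact hv (by rw [h]; rfl)

/-- The frame of a unitary representation over `E_m`. -/
def frameEM (U : EUL.Rep V k) (m : ℕ) : EUL.Frame (EM V m) U (Fin m × k) :=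
  H302.starFrame U EM.co EM.continuous_co EM.isStar fun _ _ => rfl

/-- The bundle of a unitary representation over `B_m`. -/
def bunEM (U : EUL.Rep V k) (m : ℕ) : Bun (BM V m) (Fin m × k) := (frameEM U m).bun isQuo

theorem isRank_bunEM (U : EUL.Rep V k) (m : ℕ) {n : ℕ} (hn : Fintype.card k = n) :
    (bunEM U m).IsRank n := (frameEM U m).isRank isQuo hn

/-- The complement. -/
def kapEM (U : EUL.Rep V k) (m : ℕ) : Bun (LC.of (BM V m)) (Fin m × k) := (bunEM U m).compl

theorem isRank_kapEM (U : EUL.Rep V k) (m : ℕ) {n l : ℕ} (hn : Fintype.card k = n)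
    (hl : l + n = m * n) : (kapEM U m).IsRank l :=
  EUL.isRank_compl' (B := LC.of (BM V m)) (isRank_bunEM U m hn) (by
    rw [Fintype.card_prod, Fintype.card_fin, hn, hl])

theorem fc_kapEM (U : EUL.Rep V k) (m : ℕ) : FC (kapEM U m).tot := by
  rcases Nat.eq_zero_or_pos m with rfl | hm
  · have h0 : IsEmpty (BM V 0) := ⟨fun b => by
      obtain ⟨x, -⟩ := qM_surj b
      exact (isEmpty_EM V).false x⟩
    exact CellSp.fc_tot (n := 0) _ fun b => (h0.false b).elim
  · exact CellSp.fc_tot _ (isRank_kapEM U m rfl (l := (m - 1) * Fintype.card k) (by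
      rw [← Nat.succ_mul, Nat.succ_eq_add_one, Nat.sub_add_cancel hm]))

theorem fcSt_kapEM (U : EUL.Rep V k) (m : ℕ) :
    Vale.Agent.P251.St.FC (Vale.Agent.P251.St.ofLC (kapEM U m).tot) :=
  Vale.Agent.P251.St.fc_ofLC (fc_kapEM U m)

end Vale.Agent.P241.H46
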