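import Mathlib.Algebra.Polynomial.Div
import Mathlib.RingTheory.Nilpotent.Basic
import Mathlib.RingTheory.Nilpotent.Lemmas
import Mathlib.RingTheory.Ideal.Quotient.Operations
import Mathlib.RingTheory.Localization.Away.Basic
import Mathlib.Algebra.CharP.Lemmas
import Mathlib.Data.Nat.Choose.Basic
import Mathlib.Tactic.LinearCombination

/-!
# P241, block P2: the roots lemma

If a polynomial (truncated `[p]`-series) has nilpotent roots `z_0, …, z_d` and its `d`-th
coefficient is a unit, then the Vandermonde product of the roots vanishes. Consequences for the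
Euler classes `x_a` (`a` in an elementary abelian group) of characters.
-/

open Polynomial

namespace Vale.Agent.P241.H46

variable {R : Type*} [CommRing R]

/-- A unit plus a nilpotent element is a unit. -/
theorem isUnit_add_nil {u v : R} (hu : IsUnit u) (hv : IsNilpotent v) : IsUnit (u + v) :=
  hv.isUnit_add_left_of_commute hu (Commute.all _ _)

/-- `∏_{s<t} (z_t - z_s)` -/
def vand : List R → R
  | [] => 1
  | a :: l => (l.map fun b => b - a).prod * vand l

/-- The roots lemma with a multiplier `w`: if `w f(z_s) = 0` for the nilpotent elements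
`z_0, …, z_d` and the coefficient of `X^d` in `f` is a unit, then `w ∏_{s<t} (z_t - z_s) = 0`. -/
theorem vand_mul_eq_zero : ∀ (l : List R) (f : R[X]) (w : R), l ≠ [] →
    (∀ z ∈ l, IsNilpotent z) → (∀ z ∈ l, w * f.eval z = 0) →
    IsUnit (f.coeff (l.length - 1)) → w * vand l = 0
  | [], _, _, h, _, _, _ => absurd rfl h
  | [a], f, w, _, hn, hr, hu => by
    have h1 : IsUnit (f.eval a) := by
      have : f.eval a = f.coeff 0 + a * f.divX.eval a := by
        have h := congrArg (eval a) (f.divX_mul_X_add)
        simp only [eval_add, eval_mul, eval_X, eval_C] at h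
        rw [← h]; ring
      rw [this]
      exact isUnit_add_nil (by simpa using hu)
        (Commute.isNilpotent_mul_right (Commute.all _ _) (hn a (by simp)))
    have h2 := hr a (by simp)
    have : w = 0 := (h1.mul_left_eq_zero).1 h2
    simp [this]
  | a :: b :: l, f, w, _, hn, hr, hu => by
    obtain ⟨f1, hf1⟩ : ∃ f1 : R[X], f1 = f /ₘ (X - C a) := ⟨_, rfl⟩
    have hdiv : ∀ z, f.eval z = (z - a) * f1.eval z + f.eval a := by
      intro z
      have h := modByMonic_add_div f (X - C a)
      rw [modByMonic_X_sub_C_eq_C_eval, ← hf1] at h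
      have h' := congrArg (eval z) h
      simp only [eval_add, eval_mul, eval_sub, eval_X, eval_C] at h'
      rw [← h']
      ring
    have key := vand_mul_eq_zero (b :: l) f1 (w * ((b :: l).map fun c => c - a).prod)
      (by simp) (fun z hz => hn z (List.mem_cons_of_mem _ hz)) ?_ ?_
    · rw [vand, ← mul_assoc]
      exact key
    · intro z hz
      obtain ⟨q, hq⟩ : (z - a) ∣ ((b :: l).map fun c => c - a).prod :=
        List.dvd_prod (List.mem_map_of_mem (f := fun c => c - a) hz)
      have e1 := hr z (List.mem_cons_of_mem _ hz)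
      have e2 := hr a (by simp)
      rw [hq]
      have : w * ((z - a) * q) * f1.eval z = q * (w * f.eval z - w * f.eval a) := by
        rw [hdiv z]; ring
      rw [this, e1, e2]; simp
    · have hc : f1.coeff ((b :: l).length - 1) =
          f.coeff ((b :: l).length - 1 + 1) + a * f1.coeff ((b :: l).length - 1 + 1) := by
        rw [hf1, ← coeff_divByMonic_X_sub_C_rec]
      rw [hc]
      refine isUnit_add_nil ?_ (Commute.isNilpotent_mul_right (Commute.all _ _) (hn a (by simp)))
      simpa using hu

/-- The Vandermonde product of distinct `z a`, when each difference `z b - z a` (`a ≠ b`) divides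
`P`, divides `P ^ choose n 2`. -/
theorem vand_dvd {ι : Type*} (z : ι → R) (P : R) (h : ∀ a b, a ≠ b → z b - z a ∣ P) :
    ∀ l : List ι, l.Nodup → vand (l.map z) ∣ P ^ l.length.choose 2
  | [], _ => by simp [vand]
  | a :: l, hl => by
    have hl' := List.nodup_cons.1 hl
    have ih := vand_dvd z P h l hl'.2
    have h1 : ((l.map z).map fun b => b - z a).prod ∣ P ^ l.length := by
      have : ∀ l' : List ι, a ∉ l' → ((l'.map z).map fun b => b - z a).prod ∣ P ^ l'.length := by
        intro l' hl''
        induction l' with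
        | nil => simp
        | cons b l' ih' =>
          simp only [List.map_cons, List.prod_cons, List.length_cons, pow_succ']
          have hb : a ≠ b ∧ a ∉ l' := by simpa [not_or] using hl''
          exact mul_dvd_mul (h a b hb.1) (ih' hb.2)
      exact this l hl'.1
    rw [List.map_cons, vand, List.length_cons]
    have : (l.length + 1).choose 2 = l.length + l.length.choose 2 := by
      rw [Nat.choose_succ_succ' l.length 1, Nat.choose_one_right]
    rw [this, pow_add]
    exact mul_dvd_mul h1 ih

theorem charP_of_cast_eq_zero {S : Type*} [CommRing S] [Nontrivial S] {p : ℕ} (hp : p.Prime)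
    (h : (p : S) = 0) : CharP S p := by
  obtain ⟨q, hq⟩ := CharP.exists S
  have h1 : q ∣ p := (CharP.cast_eq_zero_iff S q p).1 h
  rcases (Nat.dvd_prime hp).1 h1 with h2 | h2
  · subst h2
    exact absurd rfl (CharP.char_ne_one S 1)
  · exact h2 ▸ hq

theorem sub_pow_of_cast_eq_zero {S : Type*} [CommRing S] {p : ℕ} (hp : p.Prime) (j : ℕ)
    (h : 0 < j → (p : S) = 0) (a b : S) : (a - b) ^ p ^ j = a ^ p ^ j - b ^ p ^ j := by
  rcases Nat.eq_zero_or_pos j with rfl | hj
  · simp
  · cases subsingleton_or_nontrivial S
    · exact Subsingleton.elim _ _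
    · have := charP_of_cast_eq_zero hp (h hj)
      have := Fact.mk hp
      exact sub_pow_char_pow (p := p) a b j

/-- **The roots lemma.** `x a` are the (nilpotent) Euler classes of the characters `a`, with
`x a - x b = unit * x (a - b)`, and they are roots of the series `∑ c n X^n` (the `[p]`-series).
Modulo a nilpotent ideal `I` (generated by `v_0, …, v_{j-1}`) only the powers of `X^(p^j)` occur,
and the coefficient of `X^(p^j d)` (`= v_i`, `d = p^(i-j)`) is a unit. If there are more than `d`
characters, the product of the `x a`, `a ≠ 0`, is nilpotent with an explicit exponent. -/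
theorem roots_lemma {ι : Type*} [AddCommGroup ι] [Fintype ι] [DecidableEq ι] {p : ℕ}
    (hp : p.Prime) (x : ι → R) (hx : ∀ a, IsNilpotent (x a))
    (hsub : ∀ a b, ∃ u : Rˣ, x a - x b = u * x (a - b)) (c : ℕ → R)
    (hc : ∀ a, ∃ L₀, ∀ L ≥ L₀, ∑ n ∈ Finset.range L, c n * x a ^ n = 0)
    (I : Ideal R) (m : ℕ) (hI : I ^ m = ⊥) (j d : ℕ) (hpI : 0 < j → (p : R) ∈ I)
    (hcI : ∀ n, ¬ p ^ j ∣ n → c n ∈ I) (hd : d + 1 ≤ Fintype.card ι)
    (hu : IsUnit (Ideal.Quotient.mk I (c (p ^ j * d)))) :
    (∏ a ∈ Finset.univ.erase 0, x a) ^ (p ^ j * (d + 1).choose 2 * m) = 0 := by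
  classical
  set π := Ideal.Quotient.mk I with hπ
  set q := p ^ j with hq
  have hq0 : 0 < q := pow_pos hp.pos j
  set P := ∏ a ∈ Finset.univ.erase 0, x a with hP
  -- a list of `d + 1` different characters
  obtain ⟨s, hs⟩ := Finset.exists_subset_card_eq (s := (Finset.univ : Finset ι))
    (n := d + 1) (by simpa using hd)
  set l := s.toList with hl
  have hlen : l.length = d + 1 := by rw [hl, Finset.length_toList, hs.2]
  -- the polynomial
  choose L₀ hL₀ using hc
  set L := d + 1 + ∑ a, L₀ a with hL
  set f : (R ⧸ I)[X] := ∑ n ∈ Finset.range L, C (π (c (q * n))) * X ^ n with hf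
  have hroot : ∀ a, f.eval (π (x a) ^ q) = 0 := by
    intro a
    have h1 : f.eval (π (x a) ^ q) = ∑ n ∈ Finset.range L, π (c (q * n)) * π (x a) ^ (q * n) := by
      rw [hf, eval_finsetSum]
      refine Finset.sum_congr rfl fun n _ => ?_
      simp [pow_mul]
    have h2 : ∑ n ∈ Finset.range (q * L), π (c n) * π (x a) ^ n = 0 := by
      have h3 := hL₀ a (q * L) (by
        have : L₀ a ≤ L := by
          have := Finset.single_le_sum (f := L₀) (fun _ _ => Nat.zero_le _) (Finset.mem_univ a)
          omega
        nlinarith)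
      have h4 := congrArg π h3
      simpa [map_sum] using h4
    rw [h1, ← h2]
    have h5 : ∑ n ∈ Finset.range (q * L), π (c n) * π (x a) ^ n =
        ∑ n ∈ (Finset.range (q * L)).filter (fun n => q ∣ n), π (c n) * π (x a) ^ n := by
      rw [Finset.sum_filter]
      refine Finset.sum_congr rfl fun n _ => ?_
      split_ifs with h
      · rfl
      · rw [(Ideal.Quotient.eq_zero_iff_mem).2 (hcI n h), zero_mul]
    rw [h5]
    refine Finset.sum_bij (fun n _ => q * n) ?_ ?_ ?_ ?_
    · intro n hn
      simp only [Finset.mem_filter, Finset.mem_range] at hn ⊢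
      exact ⟨Nat.mul_lt_mul_of_pos_left hn hq0, dvd_mul_right _ _⟩
    · intro n _ n' _ h
      exact Nat.eq_of_mul_eq_mul_left hq0 h
    · intro n hn
      simp only [Finset.mem_filter, Finset.mem_range] at hn
      obtain ⟨k, rfl⟩ := hn.2
      exact ⟨k, Finset.mem_range.2 (Nat.lt_of_mul_lt_mul_left hn.1), rfl⟩
    · intro n _
      rfl
  have hcoeff : f.coeff d = π (c (q * d)) := by
    rw [hf, finsetSum_coeff]
    simp only [coeff_C_mul, coeff_X_pow]
    rw [Finset.sum_eq_single d]
    · simp
    · intro n _ hn
      simp [hn.symm]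
    · intro h
      exact absurd (Finset.mem_range.2 (by omega)) h
  -- the Vandermonde product vanishes
  have hv : vand (l.map fun a => π (x a) ^ q) = 0 := by
    have := vand_mul_eq_zero (l.map fun a => π (x a) ^ q) f 1 (by
        intro h
        have := congrArg List.length h
        simp [hlen] at this) (by
        intro z hz
        obtain ⟨a, -, rfl⟩ := List.mem_map.1 hz
        exact (((hx a).map π).pow_of_pos hq0.ne')) (by
        intro z hz
        obtain ⟨a, -, rfl⟩ := List.mem_map.1 hz
        rw [hroot a, mul_zero]) (by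
        rw [List.length_map, hlen, Nat.add_sub_cancel, hcoeff]
        exact hu)
    simpa using this
  have hdvd : vand (l.map fun a => π (x a) ^ q) ∣ (π P ^ q) ^ l.length.choose 2 := by
    refine vand_dvd (fun a => π (x a) ^ q) (π P ^ q) ?_ l (Finset.nodup_toList s)
    intro a b hab
    obtain ⟨u, hu'⟩ := hsub b a
    have h1 : π (x b) ^ q - π (x a) ^ q = (π (x b - x a)) ^ q := by
      rw [map_sub, hq]
      exact (sub_pow_of_cast_eq_zero hp j (fun hj => by
        have := (Ideal.Quotient.eq_zero_iff_mem).2 (hpI hj)
        simpa using this) _ _).symm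
    simp only [h1]
    refine pow_dvd_pow_of_dvd ?_ q
    rw [hu', map_mul]
    have h2 : π (x (b - a)) ∣ π P := by
      refine map_dvd π (Finset.dvd_prod_of_mem x ?_)
      simp [sub_eq_zero, hab.symm]
    have h3 : IsUnit (π (u : R)) := u.isUnit.map π
    exact (h3.dvd_mul_left.2 h2 |> fun _ => (IsUnit.mul_left_dvd h3).2 h2)
  have hzero : π (P ^ (q * (d + 1).choose 2)) = 0 := by
    rw [hv, zero_dvd_iff] at hdvd
    rw [map_pow, pow_mul, ← hlen]
    exact hdvd
  rw [pow_mul]
  have hmem : P ^ (q * (d + 1).choose 2) ∈ I := (Ideal.Quotient.eq_zero_iff_mem).1 hzero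
  have := Ideal.pow_mem_pow hmem m
  rw [hI] at this
  simpa using this

end Vale.Agent.P241.H46
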