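import Vale.Agent.P241.H46.EulMain
import Vale.Agent.P241.H872.Twist

/-!
# P241, T3: noncommutative `p`-groups

* `t3Prop o : T3Prop p o` : over `B_m = E_m/V` a product of Euler classes of nontrivial characters
  (with a number of factors independent of `m`) vanishes;
* `eulMain` : `eul_main` without hypothesis.
-/

open Matrix

set_option linter.style.haveILetI false

noncomputable section

namespace Vale.Agent.P241.H46

open Vale.Agent.P251.G Vale.Agent.P251.G.LC Vale.Agent.P251.Q Vale.Agent.P251.F Vale.Agent.P241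
open Vale.Agent.P241.EUL

universe v

section inter

variable {V : Type} [Group V] {B : Type} [TopologicalSpace B] {X : Type} [TopologicalSpace X]
  [MulAction V X] {q : X → B} (hq : IsQuo V q)

/-- An intertwiner which is an isomorphism does not change the bundle. -/
theorem bun_inter {κ κ' : Type} [Fintype κ] [DecidableEq κ] [Fintype κ'] [DecidableEq κ']
    {U : Rep V κ} {U' : Rep V κ'} {ι : Type} [Fintype ι] (F : Frame X U ι) (T : Matrix κ κ' ℂ)
    (hT : Tᴴ * T = 1) (hT' : T * Tᴴ = 1)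
    (h : ∀ v, T * (U' v : Matrix κ' κ' ℂ) = (U v : Matrix κ κ ℂ) * T) :
    (F.inter T hT h).bun hq = F.bun hq := by
  ext1
  funext b
  obtain ⟨e, rfl⟩ := hq.surj b
  rw [Frame.bun_P, Frame.bun_P, Frame.inter_R, conjTranspose_mul, Matrix.mul_assoc,
    ← Matrix.mul_assoc T _ (F.R e)ᴴ, hT', Matrix.one_mul]

end inter

variable {p : ℕ} [hp : Fact p.Prime] {E : MultTheory.{v}} (o : Orientation E)

/-- Twisting a representation by a character of its stabiliser does not change the Euler class. -/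
theorem e_twist {V : Type} [Group V] [Fintype V] {n : ℕ} (ρ : Rep V (Fin n))
    (χ : V →* rootsOfUnity p ℂ) (P : Matrix.unitaryGroup (Fin n) ℂ)
    (hP : ∀ v : V, ((P * ρ v * P⁻¹ : Matrix.unitaryGroup (Fin n) ℂ) : Matrix (Fin n) (Fin n) ℂ) =
        ((χ v : ℂˣ) : ℂ) • ((ρ v : Matrix.unitaryGroup (Fin n) ℂ) : Matrix (Fin n) (Fin n) ℂ))
    (m : ℕ) (h : (bunEM ρ m : Bun (LC.of (BM V m)) _).IsRank n)
    (h' : ((bunEM ρ m).tensor (bunEM (chRep χ) m) : Bun (LC.of (BM V m)) _).IsRank n) :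
    o.e (B := LC.of (BM V m)) ((bunEM ρ m).tensor (bunEM (chRep χ) m)) h' =
      o.e (B := LC.of (BM V m)) (bunEM ρ m) h := by
  have hPP : (P : Matrix (Fin n) (Fin n) ℂ) * (P : Matrix (Fin n) (Fin n) ℂ)ᴴ = 1 :=
    (Matrix.mem_unitaryGroup_iff).1 P.2
  have hPP' : (P : Matrix (Fin n) (Fin n) ℂ)ᴴ * (P : Matrix (Fin n) (Fin n) ℂ) = 1 :=
    (Matrix.mem_unitaryGroup_iff').1 P.2
  have hcomm : ∀ v, (P : Matrix (Fin n) (Fin n) ℂ) * (ρ v : Matrix (Fin n) (Fin n) ℂ) =
      ((χ v : ℂˣ) : ℂ) • ((ρ v : Matrix (Fin n) (Fin n) ℂ) * (P : Matrix (Fin n) (Fin n) ℂ)) := by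
    intro v
    have h1 := congrArg (fun M : Matrix (Fin n) (Fin n) ℂ => M * (P : Matrix _ _ ℂ)) (hP v)
    simp only [Submonoid.coe_mul, Matrix.mul_assoc, Matrix.smul_mul] at h1
    have h2 : ((P⁻¹ : Matrix.unitaryGroup (Fin n) ℂ) : Matrix (Fin n) (Fin n) ℂ) =
        (P : Matrix (Fin n) (Fin n) ℂ)ᴴ := rfl
    rw [h2, hPP', Matrix.mul_one] at h1
    exact h1
  let G := (frameEM ρ m).kron (frameEM (chRep χ) m)
  have hG : G.bun isQuo = (bunEM ρ m).tensor (bunEM (chRep χ) m) := Frame.bun_kron _ _ isQuo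
  let T : Matrix (Fin n × Unit) (Fin n) ℂ := Matrix.of fun i j => (P : Matrix _ _ ℂ) i.1 j
  have hT : Tᴴ * T = 1 := by
    rw [← hPP']
    ext i j
    simp [T, Matrix.mul_apply, Fintype.sum_prod_type]
  have hT' : T * Tᴴ = 1 := by
    ext i j
    have h1 := congrFun (congrFun hPP i.1) j.1
    simp only [Matrix.mul_apply, conjTranspose_apply] at h1 ⊢
    simp only [T, of_apply]
    rw [h1, one_apply, one_apply]
    congr 1
    simp [Prod.ext_iff]
  have hTc : ∀ v, T * (ρ v : Matrix (Fin n) (Fin n) ℂ) =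
      ((ρ.kron (chRep χ)) v : Matrix (Fin n × Unit) (Fin n × Unit) ℂ) * T := by
    intro v
    ext i j
    have h1 := congrFun (congrFun (hcomm v) i.1) j
    simp only [Matrix.mul_apply, Matrix.smul_apply, smul_eq_mul, Finset.mul_sum] at h1 ⊢
    simp only [T, of_apply, Fintype.sum_prod_type, Rep.kron_coe, kroneckerMap_apply,
      Finset.univ_unique, Finset.sum_singleton, chRep_coe]
    rw [h1]
    refine Finset.sum_congr rfl fun k _ => ?_
    ring
  have h3 := bun_inter isQuo G T hT hT' hTc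
  have h4 : (G.bun isQuo).IsRank n := G.isRank isQuo (by simp)
  have h5 : ((G.inter T hT hTc).bun isQuo).IsRank n := (G.inter T hT hTc).isRank isQuo (by simp)
  rw [← e_congr o (B := LC.of (BM V m)) hG h4 h', ← e_congr o (B := LC.of (BM V m)) h3 h5 h4]
  exact e_frame o (B := LC.of (BM V m)) isQuo _ _ _ _

theorem t3Prop : T3Prop p o := by
  classical
  intro V _ _ hV hc
  haveI : E.GoodGr := o.goodGr
  obtain ⟨n, ρ, X, hn0, hnX, hP⟩ := H122.exists_twist hV hc
  have := H122.finite_char (p := p) V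
  letI : Fintype (Additive X) := Fintype.ofFinite X
  have hcard : n < Fintype.card (Additive X) := by
    rw [← Nat.card_eq_fintype_card]
    exact hnX
  set K := (Fintype.card (Additive X)).choose 2 with hK
  refine ⟨Fin K × {a : Additive X // a ≠ 0}, inferInstance, inferInstance,
    fun i => ((Additive.toMul i.2.1 : X) : V →* rootsOfUnity p ℂ), fun i h => i.2.2 ?_,
    fun m => ?_⟩
  · apply Additive.toMul.injective
    exact Subtype.ext h
  -- the points
  let x : Additive X → E.U (LC.of (BM V m)) := fun a =>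
    o.lc (lineEM ((Additive.toMul a : X) : V →* rootsOfUnity p ℂ) m)
  have hnil : ∀ a, IsNilpotent (x a) := fun a => isNilpotent_lc o _
  have hadd : ∀ a b, x (a + b) = nev ![x a, x b] o.law.ps := fun a b =>
    (lc_lineEM_mul o _ _ m).trans (lc_tens o _ _)
  have hx : H872.Points o (Additive X) x := ⟨hnil, point_zero o.law x hnil hadd, hadd⟩
  have hL : ∀ a : Additive X,
      (bunEM (chRep ((Additive.toMul a : X) : V →* rootsOfUnity p ℂ)) m :
        Bun (LC.of (BM V m)) _).IsRank 1 := fun a => isRank_bunEM _ m rfl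
  have hρ : (bunEM ρ m : Bun (LC.of (BM V m)) _).IsRank n := isRank_bunEM ρ m (by simp)
  have hVL : ∀ a : Additive X, ((bunEM ρ m).tensor
      (bunEM (chRep ((Additive.toMul a : X) : V →* rootsOfUnity p ℂ)) m) :
        Bun (LC.of (BM V m)) _).IsRank n := by
    intro a
    have h1 := Frame.bun_kron (frameEM ρ m)
      (frameEM (chRep ((Additive.toMul a : X) : V →* rootsOfUnity p ℂ)) m) isQuo
    have h2 : (((frameEM ρ m).kron
      (frameEM (chRep ((Additive.toMul a : X) : V →* rootsOfUnity p ℂ)) m)).bun isQuo).IsRank n :=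
      Frame.isRank _ isQuo (by simp)
    exact h1 ▸ h2
  have hgood : ∀ {ι : Type} [Fintype ι] (W : Bun (LC.of (BM V m)) ι) {r : ℕ} (_ : W.IsRank r),
      E.Good W.tot := fun W _ h =>
    (inferInstance : GoodBase E (LC.of (BM V m))).tot W h
  have key := H872.prod_pow_eq_zero (X := LC.of (BM V m)) o hx (bunEM ρ m) hρ hn0 hcard
    (fun a => bunEM (chRep ((Additive.toMul a : X) : V →* rootsOfUnity p ℂ)) m) hL
    (fun a => by
      haveI := hgood _ (hL a)
      rw [o.eu_eq_e]
      exact lc_lineEM o _ m (hL a)) hVL (fun a => by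
      haveI := hgood _ (hVL a)
      haveI := hgood _ hρ
      rw [o.eu_eq_e, o.eu_eq_e]
      obtain ⟨P, hP'⟩ := hP _ (Additive.toMul a : X).2
      exact e_twist o ρ _ P hP' m hρ (hVL a))
  refine (eulEM_diagRep_pow o (fun a : {a : Additive X // a ≠ 0} =>
    ((Additive.toMul a.1 : X) : V →* rootsOfUnity p ℂ)) K m).trans ?_
  rw [← key]
  congr 1
  exact (Finset.prod_subtype (Finset.univ.erase (0 : Additive X)) (fun a => by simp) x).symm

/-- **EUL**, without hypothesis. -/
theorem eulMain (V : Type) [Group V] [Fintype V] (hV : IsPGroup p V) [Nontrivial V] (t L : ℕ) :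
    ∃ (κ : Type) (_ : Fintype κ) (_ : DecidableEq κ) (χ : κ → (V →* rootsOfUnity p ℂ)),
      (∀ k, χ k ≠ 1) ∧ ∀ m : ℕ, ∃ (M : ℕ) (c : ℕ → E.U (LC.of (BM V m))),
        vv p t o.law ^ M • eulEM o (diagRep χ) m =
          ∑ i ∈ Finset.range (htV V t), vv p i o.law ^ L • c i :=
  eul_main o (t3Prop o) V hV t L

end Vale.Agent.P241.H46
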